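import Vale.Agent.P153.R2.ARCX.Flow

/-!
# P153, block ARCX: the hulls of the limit curve are simple arcs

`arc_of_tips`: `Gen` + no swallowing + strict monotonicity of the domains + existence of tips
(length-area) imply `Arc`.
-/

open Set Filter Topology Metric Vale.Agent.P164

namespace Vale.Agent.P153.R2.ARCX

variable {W : ℝ → ℝ} {s t : ℝ}

/-- `q` is a limit of images of small semicircles around the tip -/
def IsTip (W : ℝ → ℝ) (s : ℝ) (q : ℂ) : Prop :=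
  ∀ ε > 0, ∃ ρ : ℝ, 0 < ρ ∧ ρ < ε ∧ ∀ z ∈ loewnerDomain W s, ‖flow W s z‖ = ρ → ‖z - q‖ < ε

/-- the domains decrease strictly -/
def StrictDom (W : ℝ → ℝ) : Prop :=
  ∀ s t : ℝ, 0 ≤ s → s < t → ∃ z ∈ loewnerDomain W s, z ∉ loewnerDomain W t

theorem isTip_zero : IsTip W 0 (W 0 : ℂ) := by
  intro ε hε
  refine ⟨ε / 2, by positivity, by linarith, ?_⟩
  rintro z ⟨g, hg⟩ h
  rw [flow_eq le_rfl hg, hg.1] at h
  rw [h]; linarith

theorem cluster {W' : ℝ → ℝ} {T : ℝ}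
    (hR : ∀ x : ℝ, x ≠ 0 → ∃ r > 0, ∀ z : ℂ, 0 < z.im → ‖z - x‖ < r → z ∈ loewnerDomain W' T)
    (R : ℝ) {δ : ℝ} (hδ : 0 < δ) :
    ∃ ε > 0, ∀ z : ℂ, 0 < z.im → z ∉ loewnerDomain W' T → ‖z‖ ≤ R → z.im < ε → ‖z‖ < δ := by
  by_contra hcon
  push Not at hcon
  have h1 : ∀ n : ℕ, ∃ z : ℂ, 0 < z.im ∧ z ∉ loewnerDomain W' T ∧ ‖z‖ ≤ R ∧
      z.im < 1 / ((n : ℝ) + 1) ∧ δ ≤ ‖z‖ := fun n => by
    obtain ⟨z, h⟩ := hcon (1 / ((n : ℝ) + 1)) (by positivity)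
    exact ⟨z, h⟩
  choose z hz1 hz2 hz3 hz4 hz5 using h1
  obtain ⟨w, hw, φ, hφ, hlim⟩ := (isCompact_closedBall (0 : ℂ) R).tendsto_subseq
    (x := z) (fun n => by rw [mem_closedBall_zero_iff]; exact hz3 n)
  have him : w.im = 0 := by
    have h2 : Tendsto (fun n => (z (φ n)).im) atTop (𝓝 w.im) :=
      (Complex.continuous_im.tendsto w).comp hlim
    have h3 : Tendsto (fun n => (z (φ n)).im) atTop (𝓝 0) := by
      refine squeeze_zero (fun n => (hz1 _).le) (fun n => (hz4 _).le) ?_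
      exact (tendsto_one_div_add_atTop_nhds_zero_nat (𝕜 := ℝ)).comp hφ.tendsto_atTop
    exact tendsto_nhds_unique h2 h3
  have hwx : w = (w.re : ℂ) := Complex.ext (by simp) (by simp [him])
  have hnorm : δ ≤ ‖w‖ := ge_of_tendsto hlim.norm (Eventually.of_forall fun n => hz5 _)
  have hx : w.re ≠ 0 := by
    intro h
    rw [hwx, h] at hnorm
    simp at hnorm
    linarith
  obtain ⟨r, hr, hr'⟩ := hR w.re hx
  have h4 : ∀ᶠ n in atTop, ‖z (φ n) - w‖ < r := by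
    have := (tendsto_iff_norm_sub_tendsto_zero.1 hlim)
    exact this.eventually (gt_mem_nhds hr)
  obtain ⟨n, hn⟩ := h4.exists
  rw [hwx] at hn
  exact hz2 _ (hr' _ (hz1 _) hn)

/-- **the excursion lemma** -/
theorem exc (hW : Continuous W) (hs : 0 ≤ s) (hst : s ≤ t)
    (hR : ∀ x : ℝ, x ≠ 0 → ∃ r > 0, ∀ z : ℂ, 0 < z.im → ‖z - x‖ < r →
      z ∈ loewnerDomain (fun u => W (s + u) - W s) (t - s))
    {q : ℂ} (hq : IsTip W s q) {θ : ℝ → ℂ} {b : ℝ} (hb : 0 < b) (hθ : ContinuousOn θ (Icc 0 b))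
    (h0 : θ 0 ∉ loewnerDomain W s) (h1 : ∀ u ∈ Ioc 0 b, θ u ∈ loewnerDomain W s)
    (h2 : ∀ u ∈ Ioc 0 b, θ u ∉ loewnerDomain W t) : θ 0 = q := by
  obtain ⟨R₀, hR₀⟩ := isCompact_Icc.exists_bound_of_continuousOn hθ
  obtain ⟨R₁, hR₁⟩ := fl_bound hW hs R₀
  have hZR : ∀ u ∈ Ioc 0 b, ‖flow W s (θ u)‖ ≤ R₁ := fun u hu =>
    hR₁ _ (h1 u hu) (hR₀ u ⟨hu.1.le, hu.2⟩)
  have hZc : ContinuousOn (fun u => flow W s (θ u)) (Ioc 0 b) :=
    (fl_cont hW hs).comp (hθ.mono Ioc_subset_Icc_self) h1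
  have hZn : ∀ u ∈ Ioc 0 b, flow W s (θ u) ∉ loewnerDomain (fun u => W (s + u) - W s) (t - s) :=
    fun u hu h => h2 u hu ((dom_shift_iff hs hst (h1 u hu)).2 h)
  -- step 1
  have step1 : ∀ δ > 0, ∀ b' ∈ Ioc 0 b, ∃ u ∈ Ioo 0 b', ‖flow W s (θ u)‖ < δ := by
    intro δ hδ b' hb'
    by_contra hcon
    push Not at hcon
    obtain ⟨ε, hε, hcl⟩ := cluster hR R₁ hδ
    have him : ∀ u ∈ Ioo 0 b', ε ≤ (flow W s (θ u)).im := by
      intro u hu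
      by_contra hlt
      push Not at hlt
      have hu' : u ∈ Ioc 0 b := ⟨hu.1, hu.2.le.trans hb'.2⟩
      exact absurd (hcl _ (fl_im_pos hs (h1 u hu')) (hZn u hu') (hZR u hu') hlt)
        (not_lt.2 (hcon u hu))
    set u : ℕ → ℝ := fun n => b' / (n + 2) with hu
    have hupos : ∀ n, u n ∈ Ioo 0 b' := fun n => by
      have : (0:ℝ) < n + 2 := by positivity
      refine ⟨by have := hb'.1; positivity, ?_⟩
      rw [hu]
      simp only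
      rw [div_lt_iff₀ this]
      have := hb'.1
      have h3 : (0:ℝ) ≤ n := by positivity
      nlinarith
    have hulim : Tendsto u atTop (𝓝 0) := by
      have h3 : Tendsto (fun n : ℕ => ((n : ℝ) + 2)) atTop atTop :=
        tendsto_atTop_add_const_right _ _ tendsto_natCast_atTop_atTop
      exact h3.const_div_atTop b'
    have hK : IsCompact (closedBall (0 : ℂ) R₁ ∩ {w | ε ≤ w.im}) :=
      (isCompact_closedBall _ _).inter_right (isClosed_le continuous_const Complex.continuous_im)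
    have hub : ∀ n, u n ∈ Ioc 0 b := fun n => ⟨(hupos n).1, (hupos n).2.le.trans hb'.2⟩
    obtain ⟨ξ, hξ, φ, hφ, hlim⟩ := hK.tendsto_subseq (x := fun n => flow W s (θ (u n)))
      (fun n => ⟨by rw [mem_closedBall_zero_iff]; exact hZR _ (hub n), him _ (hupos n)⟩)
    have hξim : 0 < ξ.im := lt_of_lt_of_le hε hξ.2
    obtain ⟨z, hz, hzξ⟩ := fl_surj hW hs hξim
    have h3 : Tendsto (fun n => θ (u (φ n))) atTop (𝓝 z) :=
      fl_tendsto_iff hW hs (Eventually.of_forall fun n => h1 _ (hub _)) hz (by rw [hzξ]; exact hlim)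
    have h4 : Tendsto (fun n => θ (u (φ n))) atTop (𝓝 (θ 0)) := by
      have h5 : Tendsto (fun n => u (φ n)) atTop (𝓝[Icc 0 b] 0) :=
        tendsto_nhdsWithin_iff.2 ⟨hulim.comp hφ.tendsto_atTop,
          Eventually.of_forall fun n => ⟨(hub _).1.le, (hub _).2⟩⟩
      exact (hθ 0 ⟨le_rfl, hb.le⟩).tendsto.comp h5
    exact h0 (tendsto_nhds_unique h4 h3 ▸ hz)
  by_contra hne
  set ε : ℝ := ‖θ 0 - q‖ / 2 with hε
  have hεpos : 0 < ε := by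
    have : 0 < ‖θ 0 - q‖ := norm_pos_iff.2 (sub_ne_zero.2 hne)
    positivity
  obtain ⟨δ, hδ, hδ'⟩ := Metric.continuousOn_iff.1 hθ 0 ⟨le_rfl, hb.le⟩ ε hεpos
  set b' : ℝ := min b (δ / 2) with hb'
  have hb'pos : 0 < b' := lt_min hb (by positivity)
  have hb'm : b' ∈ Ioc 0 b := ⟨hb'pos, min_le_left _ _⟩
  have hZb' : 0 < ‖flow W s (θ b')‖ :=
    norm_pos_iff.2 (flow_ne_zero (h1 b' hb'm) ⟨hs, le_rfl⟩)
  obtain ⟨ρ, hρ, hρlt, hρ'⟩ := hq (min ε ‖flow W s (θ b')‖) (lt_min hεpos hZb')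
  obtain ⟨u₀, hu₀, hu₀'⟩ := step1 ρ hρ b' hb'm
  have hIVT : Icc ‖flow W s (θ u₀)‖ ‖flow W s (θ b')‖ ⊆
      (fun u => ‖flow W s (θ u)‖) '' Icc u₀ b' :=
    intermediate_value_Icc hu₀.2.le
      ((hZc.mono (fun u hu => ⟨hu₀.1.trans_le hu.1, hu.2.trans hb'm.2⟩)).norm)
  obtain ⟨u, hu, hue⟩ := hIVT ⟨hu₀'.le, (hρlt.trans_le (min_le_right _ _)).le⟩
  have hub : u ∈ Ioc 0 b := ⟨hu₀.1.trans_le hu.1, hu.2.trans hb'm.2⟩
  have h3 := hρ' (θ u) (h1 u hub) hue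
  have h4 := hδ' u ⟨hub.1.le, hub.2⟩ (by
    rw [Real.dist_eq, sub_zero, abs_of_pos hub.1]
    calc u ≤ b' := hu.2
      _ ≤ δ / 2 := min_le_right _ _
      _ < δ := by linarith)
  rw [dist_eq_norm] at h4
  have h5 : ‖θ 0 - q‖ ≤ ‖θ u - θ 0‖ + ‖θ u - q‖ := by
    calc ‖θ 0 - q‖ = ‖(θ u - q) - (θ u - θ 0)‖ := by congr 1; ring
      _ ≤ ‖θ u - q‖ + ‖θ u - θ 0‖ := norm_sub_le _ _
      _ = _ := by ring
  have h6 : ‖θ u - q‖ < ε := h3.trans_le (min_le_left _ _)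
  linarith

/-! ### the curve -/

/-- all hypotheses -/
structure Ctx (W : ℝ → ℝ) (η : ℝ → ℂ) (c : ℝ → ℝ) (T : ℝ) : Prop where
  hW : Continuous W
  hR : NoSwallowR W
  hH : NoSwallowH W
  strict : StrictDom W
  tip : ∀ s : ℚ, 0 ≤ s → ∃ q, IsTip W s q
  gen : Gen W η c T

namespace Ctx

variable {η : ℝ → ℂ} {c : ℝ → ℝ} {T : ℝ}

theorem c_nonneg (h : Ctx W η c T) {t : ℝ} (ht : t ∈ Ico 0 T) : 0 ≤ c t := by
  have := h.gen.mono (show (0:ℝ) ∈ Ico 0 T from ⟨le_rfl, h.gen.pos⟩) ht ht.1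
  rwa [h.gen.c_zero] at this

theorem dom_eq (h : Ctx W η c T) {t : ℝ} (ht : t ∈ Ico 0 T) :
    loewnerDomain W (c t) = HH \ η '' Icc 0 t := by
  have hsub : Icc 0 t ⊆ Ico 0 T := fun u hu => ⟨hu.1, hu.2.trans_lt ht.2⟩
  have hK : IsCompact (η '' Icc 0 t) := isCompact_Icc.image_of_continuousOn (h.gen.cont.mono hsub)
  have hHo : IsOpen HH := isOpen_lt continuous_const Complex.continuous_im
  have hO : IsOpen (HH \ η '' Icc 0 t) := hHo.sdiff hK.isClosed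
  rw [h.gen.dom t ht]
  apply Subset.antisymm
  · intro z hz; exact hz.1
  · intro z hz
    refine ⟨hz, fun hbd => ?_⟩
    have hC : IsOpen (connectedComponentIn (HH \ η '' Icc 0 t) z) := hO.connectedComponentIn
    obtain ⟨r, hr, hball⟩ := Metric.isOpen_iff.1 hC z (mem_connectedComponentIn hz)
    obtain ⟨w, hw, hw'⟩ := h.hH z hz.1 r hr
    have h1 := hw' (c t) (h.c_nonneg ht)
    rw [h.gen.dom t ht] at h1
    refine h1.2 ?_
    rwa [← connectedComponentIn_eq (hball hw)]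

theorem not_mem (h : Ctx W η c T) {t u : ℝ} (ht : t ∈ Ico 0 T) (hu : u ∈ Icc 0 t) :
    η u ∉ loewnerDomain W (c t) := by
  rw [h.dom_eq ht]
  exact fun h' => h'.2 ⟨u, hu, rfl⟩

theorem not_mem_of_le (h : Ctx W η c T) {t : ℝ} (ht : t ∈ Ico 0 T) {s : ℝ} (hs : c t ≤ s) :
    η t ∉ loewnerDomain W s :=
  fun h' => h.not_mem ht ⟨ht.1, le_rfl⟩ (loewnerDomain_anti W hs h')

theorem lt_c_of_mem (h : Ctx W η c T) {t : ℝ} (ht : t ∈ Ico 0 T) {s : ℝ}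
    (hm : η t ∈ loewnerDomain W s) : s < c t := by
  by_contra hcon
  exact h.not_mem_of_le ht (not_lt.1 hcon) hm

theorem exists_first (h : Ctx W η c T) {s : ℝ} (hs : s ∈ c '' Ico 0 T) :
    ∃ t ∈ Ico 0 T, c t = s ∧ ∀ t' ∈ Ico 0 t, c t' < s := by
  obtain ⟨t₀, ht₀, rfl⟩ := hs
  have hsub : Icc 0 t₀ ⊆ Ico 0 T := fun u hu => ⟨hu.1, hu.2.trans_lt ht₀.2⟩
  have hcl : IsClosed (Icc 0 t₀ ∩ c ⁻¹' {c t₀}) :=
    (h.gen.contc.mono hsub).preimage_isClosed_of_isClosed isClosed_Icc isClosed_singleton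
  have hcp : IsCompact (Icc 0 t₀ ∩ c ⁻¹' {c t₀}) :=
    isCompact_Icc.of_isClosed_subset hcl inter_subset_left
  obtain ⟨t, ht, hmin⟩ := hcp.exists_isMinOn ⟨t₀, ⟨ht₀.1, le_rfl⟩, rfl⟩ continuousOn_id
  refine ⟨t, hsub ht.1, ht.2, fun t' ht' => ?_⟩
  have h1 : c t' ≤ c t := h.gen.mono ⟨ht'.1, ht'.2.trans (hsub ht.1).2⟩ (hsub ht.1) ht'.2.le
  have h2 : c t = c t₀ := ht.2
  rcases lt_or_eq_of_le h1 with h3 | h3
  · rwa [h2] at h3
  · have h4 : t ≤ t' := hmin (show t' ∈ Icc 0 t₀ ∩ c ⁻¹' {c t₀} from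
      ⟨⟨ht'.1, ht'.2.le.trans ht.1.2⟩, h3.trans h2⟩)
    exact absurd h4 (not_le.2 ht'.2)

open Classical in
/-- first time with capacity `s` -/
noncomputable def tf (_ : Ctx W η c T) (s : ℝ) : ℝ :=
  if h : ∃ t ∈ Ico 0 T, c t = s ∧ ∀ t' ∈ Ico 0 t, c t' < s then Classical.choose h else 0

theorem tf_spec (h : Ctx W η c T) {s : ℝ} (hs : s ∈ c '' Ico 0 T) :
    h.tf s ∈ Ico 0 T ∧ c (h.tf s) = s ∧ ∀ t' ∈ Ico 0 (h.tf s), c t' < s := by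
  have h1 := h.exists_first hs
  rw [tf, dif_pos h1]
  exact Classical.choose_spec h1

/-- the arc -/
noncomputable def hat (h : Ctx W η c T) (s : ℝ) : ℂ := η (h.tf s)

theorem tf_le (h : Ctx W η c T) {s t : ℝ} (hs : s ∈ c '' Ico 0 T) (ht : t ∈ Ico 0 T)
    (hst : s ≤ c t) : h.tf s ≤ t := by
  by_contra hcon
  push Not at hcon
  exact absurd ((h.tf_spec hs).2.2 t ⟨ht.1, hcon⟩) (not_lt.2 hst)

theorem lt_tf (h : Ctx W η c T) {s t : ℝ} (hs : s ∈ c '' Ico 0 T) (ht : t ∈ Ico 0 T)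
    (hst : c t < s) : t < h.tf s := by
  by_contra hcon
  push Not at hcon
  have h1 := h.gen.mono (h.tf_spec hs).1 ht hcon
  rw [(h.tf_spec hs).2.1] at h1
  linarith

theorem zero_mem (h : Ctx W η c T) : (0 : ℝ) ∈ c '' Ico 0 T :=
  ⟨0, ⟨le_rfl, h.gen.pos⟩, h.gen.c_zero⟩

theorem tf_zero (h : Ctx W η c T) : h.tf 0 = 0 :=
  le_antisymm (h.tf_le h.zero_mem ⟨le_rfl, h.gen.pos⟩ (by rw [h.gen.c_zero]))
    (h.tf_spec h.zero_mem).1.1

theorem hat_not_mem (h : Ctx W η c T) {s s' : ℝ} (hs : s ∈ c '' Ico 0 T) (hss : s ≤ s') :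
    h.hat s ∉ loewnerDomain W s' :=
  h.not_mem_of_le (h.tf_spec hs).1 (by rw [(h.tf_spec hs).2.1]; exact hss)

theorem s_nonneg (h : Ctx W η c T) {s : ℝ} (hs : s ∈ c '' Ico 0 T) : 0 ≤ s := by
  obtain ⟨t, ht, rfl⟩ := hs
  exact h.c_nonneg ht

theorem mem_of_le (h : Ctx W η c T) {s s' : ℝ} (hs : s ∈ c '' Ico 0 T) (h0 : 0 ≤ s')
    (hss : s' ≤ s) : s' ∈ c '' Ico 0 T := by
  obtain ⟨t, ht, rfl⟩ := hs
  have hsub : Icc 0 t ⊆ Ico 0 T := fun u hu => ⟨hu.1, hu.2.trans_lt ht.2⟩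
  have h1 := intermediate_value_Icc ht.1 (h.gen.contc.mono hsub)
  rw [h.gen.c_zero] at h1
  obtain ⟨u, hu, hue⟩ := h1 ⟨h0, hss⟩
  exact ⟨u, hsub hu, hue⟩

/-- every point of the curve in the open half-plane is on the arc -/
theorem mem (h : Ctx W η c T) {t : ℝ} (ht : t ∈ Ico 0 T) (him : 0 < (η t).im) :
    ∃ s ∈ Ioc 0 (c t), η t = h.hat s := by
  have hsub : Icc 0 t ⊆ Ico 0 T := fun u hu => ⟨hu.1, hu.2.trans_lt ht.2⟩
  have hcl : IsClosed (Icc 0 t ∩ η ⁻¹' {η t}) :=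
    (h.gen.cont.mono hsub).preimage_isClosed_of_isClosed isClosed_Icc isClosed_singleton
  have hcp : IsCompact (Icc 0 t ∩ η ⁻¹' {η t}) :=
    isCompact_Icc.of_isClosed_subset hcl inter_subset_left
  obtain ⟨σ, hσ, hmin⟩ := hcp.exists_isMinOn ⟨t, ⟨ht.1, le_rfl⟩, rfl⟩ continuousOn_id
  have hσI := hsub hσ.1
  have hσe : η σ = η t := hσ.2
  have hcm : c σ ∈ c '' Ico 0 T := ⟨σ, hσI, rfl⟩
  have h1 : h.tf (c σ) ≤ σ := h.tf_le hcm hσI le_rfl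
  have h2 : η σ ∉ loewnerDomain W (c σ) := h.not_mem hσI ⟨hσI.1, le_rfl⟩
  rw [show c σ = c (h.tf (c σ)) from (h.tf_spec hcm).2.1.symm, h.dom_eq (h.tf_spec hcm).1] at h2
  have h3 : η σ ∈ η '' Icc 0 (h.tf (c σ)) := by
    by_contra hcon
    exact h2 ⟨by rw [hσe]; exact him, hcon⟩
  obtain ⟨t', ht', hte⟩ := h3
  have h4 : σ ≤ t' := hmin (show t' ∈ Icc 0 t ∩ η ⁻¹' {η t} from
    ⟨⟨ht'.1, ht'.2.trans (h1.trans hσ.1.2)⟩, hte.trans hσe⟩)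
  have h5 : h.tf (c σ) = σ := le_antisymm h1 (h4.trans ht'.2)
  have h6 : h.hat (c σ) = η t := by rw [hat, h5, hσe]
  refine ⟨c σ, ⟨lt_of_le_of_ne (h.c_nonneg hσI) fun h0 => ?_, h.gen.mono hσI ht hσ.1.2⟩, h6.symm⟩
  rw [← h0, hat, h.tf_zero, h.gen.start] at h6
  rw [← h6] at him
  simp at him

theorem dom_hat (h : Ctx W η c T) {s : ℝ} (hs : s ∈ c '' Ico 0 T) :
    loewnerDomain W s = HH \ h.hat '' Icc 0 s := by
  apply Subset.antisymm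
  · intro z hz
    refine ⟨dom_sub_HH (h.s_nonneg hs) hz, ?_⟩
    rintro ⟨σ, hσ, rfl⟩
    exact h.hat_not_mem (h.mem_of_le hs hσ.1 hσ.2) hσ.2 hz
  · intro z hz
    by_contra hcon
    have h1 : c (h.tf s) = s := (h.tf_spec hs).2.1
    have h2 := h.dom_eq (h.tf_spec hs).1
    rw [h1] at h2
    rw [h2] at hcon
    have h3 : z ∈ η '' Icc 0 (h.tf s) := by
      by_contra h'
      exact hcon ⟨hz.1, h'⟩
    obtain ⟨t, ht, rfl⟩ := h3
    have htI : t ∈ Ico 0 T := ⟨ht.1, ht.2.trans_lt (h.tf_spec hs).1.2⟩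
    obtain ⟨σ, hσ, hσe⟩ := h.mem htI hz.1
    refine hz.2 ⟨σ, ⟨hσ.1.le, hσ.2.trans ?_⟩, hσe.symm⟩
    have := h.gen.mono htI (h.tf_spec hs).1 ht.2
    rwa [h1] at this

/-- new points appear between two different capacities -/
theorem new (h : Ctx W η c T) {s t₁ t₂ : ℝ} (hs : 0 ≤ s) (ht₂ : t₂ ∈ Ico 0 T)
    (ht₁ : t₁ ∈ Icc 0 t₂) (h₁ : c t₁ ≤ s) (h₂ : s < c t₂) :
    ∃ w ∈ Ioc t₁ t₂, η w ∈ loewnerDomain W s := by
  obtain ⟨z, hz, hz'⟩ := h.strict s (c t₂) hs h₂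
  rw [h.dom_eq ht₂] at hz'
  have h3 : z ∈ η '' Icc 0 t₂ := by
    by_contra h'
    exact hz' ⟨dom_sub_HH hs hz, h'⟩
  obtain ⟨w, hw, rfl⟩ := h3
  refine ⟨w, ⟨?_, hw.2⟩, hz⟩
  by_contra hcon
  push Not at hcon
  have ht₁I : t₁ ∈ Ico 0 T := ⟨ht₁.1, ht₁.2.trans_lt ht₂.2⟩
  exact h.not_mem ht₁I ⟨hw.1, hcon⟩ (loewnerDomain_anti W h₁ hz)

theorem left_exc (h : Ctx W η c T) {s : ℚ} (hs : 0 ≤ s) {q : ℂ} (hq : IsTip W s q) {w : ℝ}
    (hw : w ∈ Ico 0 T) (hm : η w ∈ loewnerDomain W s) :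
    ∃ v ∈ Ico 0 w, η v = q ∧ ∀ u ∈ Ioc v w, η u ∈ loewnerDomain W s := by
  have hs' : (0:ℝ) ≤ s := by exact_mod_cast hs
  have hsub : Icc 0 w ⊆ Ico 0 T := fun u hu => ⟨hu.1, hu.2.trans_lt hw.2⟩
  have hO := isOpen_dom h.hW hs'
  have hcl : IsClosed (Icc 0 w ∩ η ⁻¹' (loewnerDomain W s)ᶜ) :=
    (h.gen.cont.mono hsub).preimage_isClosed_of_isClosed isClosed_Icc hO.isClosed_compl
  have hcp : IsCompact (Icc 0 w ∩ η ⁻¹' (loewnerDomain W s)ᶜ) :=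
    isCompact_Icc.of_isClosed_subset hcl inter_subset_left
  have h0 : η 0 ∉ loewnerDomain W s := by
    intro h'
    have := dom_sub_HH hs' h'
    rw [h.gen.start] at this
    simp [HH] at this
  obtain ⟨v, hv, hmax⟩ := hcp.exists_isMaxOn ⟨0, ⟨le_rfl, hw.1⟩, h0⟩ continuousOn_id
  have hvw : v < w := by
    rcases lt_or_eq_of_le hv.1.2 with h1 | h1
    · exact h1
    · exact absurd hm (by rw [← h1]; exact hv.2)
  have hin : ∀ u ∈ Ioc v w, η u ∈ loewnerDomain W s := by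
    intro u hu
    by_contra hcon
    have : u ≤ v := hmax (show u ∈ Icc 0 w ∩ η ⁻¹' (loewnerDomain W s)ᶜ from
      ⟨⟨hv.1.1.trans hu.1.le, hu.2⟩, hcon⟩)
    exact absurd this (not_le.2 hu.1)
  refine ⟨v, ⟨hv.1.1, hvw⟩, ?_, hin⟩
  have hlt : (s : ℝ) < c w := h.lt_c_of_mem hw hm
  have hmaps : MapsTo (fun u : ℝ => v + u) (Icc 0 (w - v)) (Icc 0 w) := fun u hu =>
    ⟨by linarith [hu.1, hv.1.1], by linarith [hu.2]⟩
  have h1 := exc (t := c w) h.hW hs' hlt.le (fun x hx => h.hR s hs x hx (c w - s)) hq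
    (θ := fun u => η (v + u)) (b := w - v) (by linarith)
    ((h.gen.cont.mono hsub).comp (by fun_prop) hmaps)
    (by simpa using hv.2)
    (fun u hu => hin _ ⟨by linarith [hu.1], by linarith [hu.2]⟩)
    (fun u hu => h.not_mem hw ⟨by linarith [hu.1, hv.1.1], by linarith [hu.2]⟩)
  simpa using h1

theorem right_exc (h : Ctx W η c T) {s : ℚ} (hs : 0 ≤ s) {q : ℂ} (hq : IsTip W s q) {w t₂ : ℝ}
    (hw : 0 ≤ w) (ht₂ : t₂ ∈ Ico 0 T) (hwt : w ≤ t₂) (hm : η w ∈ loewnerDomain W s)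
    (hn : η t₂ ∉ loewnerDomain W s) : ∃ v ∈ Ioc w t₂, η v = q := by
  have hs' : (0:ℝ) ≤ s := by exact_mod_cast hs
  have hwI : w ∈ Ico 0 T := ⟨hw, hwt.trans_lt ht₂.2⟩
  have hsub : Icc w t₂ ⊆ Ico 0 T := fun u hu => ⟨hw.trans hu.1, hu.2.trans_lt ht₂.2⟩
  have hO := isOpen_dom h.hW hs'
  have hcl : IsClosed (Icc w t₂ ∩ η ⁻¹' (loewnerDomain W s)ᶜ) :=
    (h.gen.cont.mono hsub).preimage_isClosed_of_isClosed isClosed_Icc hO.isClosed_compl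
  have hcp : IsCompact (Icc w t₂ ∩ η ⁻¹' (loewnerDomain W s)ᶜ) :=
    isCompact_Icc.of_isClosed_subset hcl inter_subset_left
  obtain ⟨v, hv, hmin⟩ := hcp.exists_isMinOn ⟨t₂, ⟨hwt, le_rfl⟩, hn⟩ continuousOn_id
  have hvw : w < v := by
    rcases lt_or_eq_of_le hv.1.1 with h1 | h1
    · exact h1
    · exact absurd hm (by rw [h1]; exact hv.2)
  have hin : ∀ u ∈ Ico w v, η u ∈ loewnerDomain W s := by
    intro u hu
    by_contra hcon
    have : v ≤ u := hmin (show u ∈ Icc w t₂ ∩ η ⁻¹' (loewnerDomain W s)ᶜ from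
      ⟨⟨hu.1, hu.2.le.trans hv.1.2⟩, hcon⟩)
    exact absurd this (not_le.2 hu.2)
  refine ⟨v, ⟨hvw, hv.1.2⟩, ?_⟩
  have hlt : (s : ℝ) < c t₂ := (h.lt_c_of_mem hwI hm).trans_le (h.gen.mono hwI ht₂ hwt)
  have hmaps : MapsTo (fun u : ℝ => v - u) (Icc 0 (v - w)) (Icc w t₂) := fun u hu =>
    ⟨by linarith [hu.2], by linarith [hu.1, hv.1.2]⟩
  have h1 := exc (t := c t₂) h.hW hs' hlt.le (fun x hx => h.hR s hs x hx (c t₂ - s)) hq
    (θ := fun u => η (v - u)) (b := v - w) (by linarith)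
    ((h.gen.cont.mono hsub).comp (by fun_prop) hmaps)
    (by simpa using hv.2)
    (fun u hu => hin _ ⟨by linarith [hu.2], by linarith [hu.1]⟩)
    (fun u hu => h.not_mem ht₂ ⟨by linarith [hu.2], by linarith [hu.1, hv.1.2]⟩)
  simpa using h1

/-- the tip is a value of the curve between two times -/
theorem tip_between (h : Ctx W η c T) {s : ℚ} (hs : 0 ≤ s) {q : ℂ} (hq : IsTip W s q)
    {t₁ t₂ : ℝ} (ht₂ : t₂ ∈ Ico 0 T) (ht₁ : t₁ ∈ Icc 0 t₂) (h₁ : c t₁ ≤ s) (h₂ : s < c t₂) :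
    ∃ v ∈ Icc t₁ t₂, η v = q := by
  have hs' : (0:ℝ) ≤ s := by exact_mod_cast hs
  obtain ⟨w, hw, hm⟩ := h.new hs' ht₂ ht₁ h₁ h₂
  have hwI : w ∈ Ico 0 T := ⟨ht₁.1.trans hw.1.le, hw.2.trans_lt ht₂.2⟩
  obtain ⟨v, hv, hvq, hv'⟩ := h.left_exc hs hq hwI hm
  refine ⟨v, ⟨?_, hv.2.le.trans hw.2⟩, hvq⟩
  by_contra hcon
  push Not at hcon
  exact h.not_mem_of_le ⟨ht₁.1, ht₁.2.trans_lt ht₂.2⟩ h₁ (hv' t₁ ⟨hcon, hw.1.le⟩)

theorem near (h : Ctx W η c T) {ℓ : ℝ} (hℓ : ℓ ∈ Ico 0 T) {ε : ℝ} (hε : 0 < ε) :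
    ∃ δ > 0, ∀ v ∈ Ico 0 T, |v - ℓ| < δ → ‖η v - η ℓ‖ < ε := by
  obtain ⟨δ, hδ, h1⟩ := Metric.continuousOn_iff.1 h.gen.cont ℓ hℓ ε hε
  exact ⟨δ, hδ, fun v hv hvl => by rw [← dist_eq_norm]; exact h1 v hv hvl⟩

/-- `(A)`: a point where the curve leaves a level set of `c` is a tip -/
theorem tip_of_leave (h : Ctx W η c T) {ℓ : ℝ} (hℓ : ℓ ∈ Ico 0 T)
    (hl : ∀ δ > 0, ∃ t ∈ Ico 0 T, t < ℓ + δ ∧ c ℓ < c t) {s : ℚ} (hs : 0 ≤ s) (hsc : s ≤ c ℓ)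
    (hn : η ℓ ∉ loewnerDomain W s) {q : ℂ} (hq : IsTip W s q) : q = η ℓ := by
  by_contra hne
  have hpos : 0 < ‖q - η ℓ‖ := norm_pos_iff.2 (sub_ne_zero.2 hne)
  obtain ⟨δ, hδ, hnear⟩ := h.near hℓ hpos
  obtain ⟨t₂, ht₂, htδ, hct⟩ := hl δ hδ
  have hlt : ℓ < t₂ := by
    by_contra hcon
    push Not at hcon
    exact absurd (h.gen.mono ht₂ hℓ hcon) (not_le.2 hct)
  obtain ⟨w, hw, hm⟩ := h.new (h.c_nonneg hℓ) ht₂ ⟨hℓ.1, hlt.le⟩ le_rfl hct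
  have hwI : w ∈ Ico 0 T := ⟨hℓ.1.trans hw.1.le, hw.2.trans_lt ht₂.2⟩
  obtain ⟨v, hv, hvq, hv'⟩ := h.left_exc hs hq hwI (loewnerDomain_anti W hsc hm)
  have hℓv : ℓ ≤ v := by
    by_contra hcon
    push Not at hcon
    exact hn (hv' ℓ ⟨hcon, hw.1.le⟩)
  have hvI : v ∈ Ico 0 T := ⟨hv.1, hv.2.trans hwI.2⟩
  have h1 := hnear v hvI (by
    rw [abs_of_nonneg (by linarith)]
    linarith [hv.2, hw.2])
  rw [hvq] at h1
  exact lt_irrefl _ h1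

/-- the curve has the same position at the first and at the last time of a level set of `c` -/
theorem eta_last (h : Ctx W η c T) {ℓ : ℝ} (hℓ : ℓ ∈ Ico 0 T)
    (hl : ∀ δ > 0, ∃ t ∈ Ico 0 T, t < ℓ + δ ∧ c ℓ < c t) : η ℓ = h.hat (c ℓ) := by
  have hsm : c ℓ ∈ c '' Ico 0 T := ⟨ℓ, hℓ, rfl⟩
  obtain ⟨hT, hcT, hfirst⟩ := h.tf_spec hsm
  set Ts := h.tf (c ℓ) with hTs
  have hTℓ : Ts ≤ ℓ := h.tf_le hsm hℓ le_rfl
  by_contra hne
  have hnot : η ℓ ∉ loewnerDomain W (c ℓ) := h.not_mem hℓ ⟨hℓ.1, le_rfl⟩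
  rcases eq_or_lt_of_le (h.c_nonneg hℓ) with h0 | h0
  · -- capacity zero
    have hq : IsTip W ((0 : ℚ) : ℝ) (W 0 : ℂ) := by
      rw [Rat.cast_zero]; exact isTip_zero
    have h1 := h.tip_of_leave hℓ hl (s := 0) le_rfl (by rw [Rat.cast_zero, ← h0])
      (by rw [Rat.cast_zero]; rwa [← h0] at hnot) hq
    apply hne
    rw [← h1, hat, ← h0, h.tf_zero, h.gen.start]
  · -- positive capacity
    obtain ⟨s₁, hs₁0, hs₁, hs₁'⟩ : ∃ s₁, 0 ≤ s₁ ∧ s₁ < c ℓ ∧ η ℓ ∉ loewnerDomain W s₁ := by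
      by_cases him : 0 < (η ℓ).im
      · rw [← hcT, h.dom_eq hT] at hnot
        have h3 : η ℓ ∈ η '' Icc 0 Ts := by
          by_contra h'
          exact hnot ⟨him, h'⟩
        obtain ⟨t', ht', hte⟩ := h3
        have htI : t' ∈ Ico 0 T := ⟨ht'.1, ht'.2.trans_lt hT.2⟩
        have hne' : t' ≠ Ts := by
          intro h'
          rw [h'] at hte
          exact hne hte.symm
        refine ⟨c t', h.c_nonneg htI, hfirst t' ⟨ht'.1, lt_of_le_of_ne ht'.2 hne'⟩, ?_⟩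
        rw [← hte]
        exact h.not_mem_of_le htI le_rfl
      · exact ⟨0, le_rfl, h0, fun h' => him (dom_sub_HH le_rfl h')⟩
    have hTpos : 0 < Ts := by
      rcases eq_or_lt_of_le hT.1 with h1 | h1
      · rw [← h1, h.gen.c_zero] at hcT
        linarith
      · exact h1
    have hpos : 0 < ‖η ℓ - η Ts‖ := norm_pos_iff.2 (sub_ne_zero.2 hne)
    obtain ⟨δ, hδ, hnear⟩ := h.near hT hpos
    set t₁ : ℝ := max (Ts - δ / 2) 0 with ht₁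
    have ht₁m : t₁ ∈ Ico 0 Ts := ⟨le_max_right _ _, max_lt (by linarith) hTpos⟩
    have hct₁ : c t₁ < c ℓ := hfirst t₁ ht₁m
    obtain ⟨s, hs1, hs2⟩ := exists_rat_btwn (max_lt hs₁ hct₁)
    have hs0 : (0:ℝ) ≤ s := hs₁0.trans ((le_max_left _ _).trans hs1.le)
    have hs0' : (0:ℚ) ≤ s := by exact_mod_cast hs0
    obtain ⟨q, hq⟩ := h.tip s hs0'
    have h5 : q = η ℓ := h.tip_of_leave hℓ hl hs0' hs2.le
      (fun h' => hs₁' (loewnerDomain_anti W ((le_max_left _ _).trans hs1.le) h')) hq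
    obtain ⟨v, hv, hvq⟩ := h.tip_between hs0' hq hT ⟨ht₁m.1, ht₁m.2.le⟩
      ((le_max_right _ _).trans hs1.le) (by rw [hcT]; exact hs2)
    have hvI : v ∈ Ico 0 T := ⟨ht₁m.1.trans hv.1, hv.2.trans_lt hT.2⟩
    have h6 := hnear v hvI (by
      rw [abs_sub_comm, abs_of_nonneg (by linarith [hv.2])]
      have := le_max_left (Ts - δ / 2) 0
      have h7 : t₁ ≤ v := hv.1
      linarith)
    rw [hvq, h5] at h6
    exact lt_irrefl _ h6

/-- existence of the last time -/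
theorem exists_last (h : Ctx W η c T) {s t' : ℝ} (hs : 0 ≤ s) (ht' : t' ∈ Ico 0 T)
    (hst : s < c t') : ∃ ℓ ∈ Ico 0 t', c ℓ = s ∧ ∀ t ∈ Ioc ℓ t', s < c t := by
  have hsub : Icc 0 t' ⊆ Ico 0 T := fun u hu => ⟨hu.1, hu.2.trans_lt ht'.2⟩
  have hcl : IsClosed (Icc 0 t' ∩ c ⁻¹' Iic s) :=
    (h.gen.contc.mono hsub).preimage_isClosed_of_isClosed isClosed_Icc isClosed_Iic
  have hcp : IsCompact (Icc 0 t' ∩ c ⁻¹' Iic s) :=
    isCompact_Icc.of_isClosed_subset hcl inter_subset_left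
  obtain ⟨ℓ, hℓ, hmax⟩ := hcp.exists_isMaxOn ⟨0, ⟨le_rfl, ht'.1⟩, by
    show c 0 ≤ s
    rw [h.gen.c_zero]; exact hs⟩ continuousOn_id
  have hℓs : c ℓ ≤ s := hℓ.2
  have hlt : ℓ < t' := by
    rcases lt_or_eq_of_le hℓ.1.2 with h1 | h1
    · exact h1
    · rw [h1] at hℓs
      linarith
  have hout : ∀ t ∈ Ioc ℓ t', s < c t := by
    intro t ht
    by_contra hcon
    push Not at hcon
    have : t ≤ ℓ := hmax (show t ∈ Icc 0 t' ∩ c ⁻¹' Iic s from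
      ⟨⟨hℓ.1.1.trans ht.1.le, ht.2⟩, hcon⟩)
    exact absurd this (not_le.2 ht.1)
  refine ⟨ℓ, ⟨hℓ.1.1, hlt⟩, le_antisymm hℓs ?_, hout⟩
  have h1 : Tendsto c (𝓝[>] ℓ) (𝓝 (c ℓ)) := by
    have h2 := ((h.gen.contc.mono hsub) ℓ hℓ.1).mono_left
      (nhdsWithin_mono ℓ (show Ioc ℓ t' ⊆ Icc 0 t' from fun u hu => ⟨hℓ.1.1.trans hu.1.le, hu.2⟩))
    rwa [nhdsWithin_Ioc_eq_nhdsGT hlt] at h2
  refine ge_of_tendsto h1 ?_
  filter_upwards [Ioc_mem_nhdsGT hlt] with u hu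
  exact (hout u hu).le

/-- tips of rational levels are on the arc -/
theorem tip_eq (h : Ctx W η c T) {s : ℚ} (hs : 0 ≤ s) {q : ℂ} (hq : IsTip W s q) {t' : ℝ}
    (ht' : t' ∈ Ico 0 T) (hst : s < c t') : q = h.hat s := by
  have hs' : (0:ℝ) ≤ s := by exact_mod_cast hs
  obtain ⟨ℓ, hℓ, hcℓ, hout⟩ := h.exists_last hs' ht' hst
  have hℓI : ℓ ∈ Ico 0 T := ⟨hℓ.1, hℓ.2.trans ht'.2⟩
  have hl : ∀ δ > 0, ∃ t ∈ Ico 0 T, t < ℓ + δ ∧ c ℓ < c t := by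
    intro δ hδ
    refine ⟨min t' (ℓ + δ / 2), ⟨le_min ht'.1 (by linarith [hℓ.1]),
      (min_le_left _ _).trans_lt ht'.2⟩, (min_le_right _ _).trans_lt (by linarith), ?_⟩
    rw [hcℓ]
    exact hout _ ⟨lt_min hℓ.2 (by linarith), min_le_left _ _⟩
  rw [h.tip_of_leave hℓI hl hs hcℓ.ge (h.not_mem_of_le hℓI hcℓ.le) hq, h.eta_last hℓI hl, hcℓ]

/-- continuity of the arc -/
theorem hat_cont (h : Ctx W η c T) : ContinuousOn h.hat (c '' Ico 0 T) := by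
  intro s hs
  rw [Metric.continuousWithinAt_iff]
  intro ε hε
  obtain ⟨hT, hcT, hfirst⟩ := h.tf_spec hs
  -- left side
  obtain ⟨δ₁, hδ₁, hleft⟩ : ∃ δ > 0, ∀ s' ∈ c '' Ico 0 T, s' ≤ s → s - δ < s' →
      ‖h.hat s' - h.hat s‖ < ε := by
    obtain ⟨δ, hδ, hnear⟩ := h.near hT hε
    rcases eq_or_lt_of_le hT.1 with h0 | h0
    · refine ⟨1, one_pos, fun s' hs' hle _ => ?_⟩
      have h1 : s = 0 := by rw [← hcT, ← h0, h.gen.c_zero]
      have h2 : s' = s := le_antisymm hle (by rw [h1]; exact h.s_nonneg hs')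
      rw [h2, sub_self, norm_zero]; exact hε
    · set t₁ : ℝ := max (h.tf s - δ / 2) 0 with ht₁
      have ht₁m : t₁ ∈ Ico 0 (h.tf s) := ⟨le_max_right _ _, max_lt (by linarith) h0⟩
      have hct₁ : c t₁ < s := hfirst t₁ ht₁m
      refine ⟨s - c t₁, by linarith, fun s' hs' hle hlt => ?_⟩
      have hcs : c t₁ < s' := by linarith
      have h1 : t₁ < h.tf s' := h.lt_tf hs' ⟨ht₁m.1, ht₁m.2.trans hT.2⟩ hcs
      have h2 : h.tf s' ≤ h.tf s := h.tf_le hs' hT (by rw [hcT]; exact hle)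
      refine hnear _ (h.tf_spec hs').1 ?_
      rw [abs_sub_comm, abs_of_nonneg (by linarith)]
      have := le_max_left (h.tf s - δ / 2) 0
      have h3 : h.tf s - δ / 2 ≤ t₁ := this
      linarith
  obtain ⟨δ₂, hδ₂, hright⟩ : ∃ δ > 0, ∀ s' ∈ c '' Ico 0 T, s < s' → s' < s + δ →
      ‖h.hat s' - h.hat s‖ < ε := by
    by_cases hex : ∃ t' ∈ Ico 0 T, s < c t'
    · obtain ⟨t', ht', hst⟩ := hex
      obtain ⟨ℓ, hℓ, hcℓ, hout⟩ := h.exists_last (h.s_nonneg hs) ht' hst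
      have hℓI : ℓ ∈ Ico 0 T := ⟨hℓ.1, hℓ.2.trans ht'.2⟩
      have hl : ∀ δ > 0, ∃ t ∈ Ico 0 T, t < ℓ + δ ∧ c ℓ < c t := by
        intro δ hδ
        refine ⟨min t' (ℓ + δ / 2), ⟨le_min ht'.1 (by linarith [hℓ.1]),
          (min_le_left _ _).trans_lt ht'.2⟩, (min_le_right _ _).trans_lt (by linarith), ?_⟩
        rw [hcℓ]
        exact hout _ ⟨lt_min hℓ.2 (by linarith), min_le_left _ _⟩
      have hlast := h.eta_last hℓI hl
      rw [hcℓ] at hlast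
      obtain ⟨δ, hδ, hnear⟩ := h.near hℓI hε
      obtain ⟨t₂, ht₂, htδ, hct⟩ := hl δ hδ
      rw [hcℓ] at hct
      refine ⟨c t₂ - s, by linarith, fun s' hs' hlt hlt' => ?_⟩
      have h1 : h.tf s' ≤ t₂ := h.tf_le hs' ht₂ (by linarith)
      have h2 : ℓ < h.tf s' := h.lt_tf hs' hℓI (by rw [hcℓ]; exact hlt)
      rw [← hlast]
      refine hnear _ (h.tf_spec hs').1 ?_
      rw [abs_of_pos (by linarith)]
      linarith
    · push Not at hex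
      refine ⟨1, one_pos, fun s' hs' hlt _ => ?_⟩
      obtain ⟨t', ht', rfl⟩ := hs'
      exact absurd (hex t' ht') (not_le.2 hlt)
  refine ⟨min δ₁ δ₂, lt_min hδ₁ hδ₂, fun {s'} hs' hd => ?_⟩
  rw [Real.dist_eq] at hd
  rw [dist_eq_norm]
  have hd1 := hd.trans_le (min_le_left _ _)
  have hd2 := hd.trans_le (min_le_right _ _)
  rw [abs_lt] at hd1 hd2
  rcases le_or_gt s' s with hle | hlt
  · exact hleft s' hs' hle (by linarith)
  · exact hright s' hs' hlt (by linarith)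

/-- the arc does not touch its past nor the real line -/
theorem core (h : Ctx W η c T) {s₁ s₂ : ℝ} (hs₂ : s₂ ∈ c '' Ico 0 T) (h0 : 0 ≤ s₁)
    (h12 : s₁ < s₂) : h.hat s₂ ∈ loewnerDomain W s₁ := by
  by_contra hn
  obtain ⟨hT, hcT, hfirst⟩ := h.tf_spec hs₂
  have hTpos : 0 < h.tf s₂ := by
    rcases eq_or_lt_of_le hT.1 with h1 | h1
    · rw [← h1, h.gen.c_zero] at hcT
      linarith
    · exact h1
  -- rational levels
  have hrat : ∀ s : ℚ, s₁ < s → (s : ℝ) < s₂ → h.hat s = h.hat s₂ := by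
    intro s hs1 hs2
    have hs0 : (0:ℝ) ≤ s := h0.trans hs1.le
    have hs0' : (0:ℚ) ≤ s := by exact_mod_cast hs0
    obtain ⟨q, hq⟩ := h.tip s hs0'
    have hn' : h.hat s₂ ∉ loewnerDomain W s := fun h' => hn (loewnerDomain_anti W hs1.le h')
    have h1 : q = h.hat s₂ := by
      by_contra hne
      have hpos : 0 < ‖q - η (h.tf s₂)‖ := norm_pos_iff.2 (sub_ne_zero.2 hne)
      obtain ⟨δ, hδ, hnear⟩ := h.near hT hpos
      set t₁ : ℝ := max (h.tf s₂ - δ / 2) 0 with ht₁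
      have ht₁m : t₁ ∈ Ico 0 (h.tf s₂) := ⟨le_max_right _ _, max_lt (by linarith) hTpos⟩
      have hct₁ : c t₁ < s₂ := hfirst t₁ ht₁m
      have hmid : max (s : ℝ) (c t₁) < s₂ := max_lt hs2 hct₁
      obtain ⟨w, hw, hm⟩ := h.new (hs0.trans (le_max_left _ _)) hT ⟨ht₁m.1, ht₁m.2.le⟩
        (le_max_right _ _) (by rw [hcT]; exact hmid)
      have hm' := loewnerDomain_anti W (le_max_left (s : ℝ) (c t₁)) hm
      obtain ⟨v, hv, hvq⟩ := h.right_exc hs0' hq (ht₁m.1.trans hw.1.le) hT hw.2 hm' hn'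
      have hvI : v ∈ Ico 0 T := ⟨(ht₁m.1.trans hw.1.le).trans hv.1.le, hv.2.trans_lt hT.2⟩
      have h6 := hnear v hvI (by
        rw [abs_sub_comm, abs_of_nonneg (by linarith [hv.2])]
        have h7 : h.tf s₂ - δ / 2 ≤ t₁ := le_max_left _ _
        linarith [hv.1, hw.1])
      rw [hvq] at h6
      exact lt_irrefl _ h6
    rw [← h1]
    exact (h.tip_eq hs0' hq hT (by rw [hcT]; exact hs2)).symm
  -- all real levels
  have hreal : ∀ s : ℝ, s₁ < s → s < s₂ → h.hat s = h.hat s₂ := by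
    intro s hs1 hs2
    have hsm : s ∈ c '' Ico 0 T := h.mem_of_le hs₂ (h0.trans hs1.le) hs2.le
    by_contra hne
    have hpos : 0 < dist (h.hat s₂) (h.hat s) := dist_pos.2 (Ne.symm hne)
    obtain ⟨δ, hδ, hδ'⟩ := Metric.continuousWithinAt_iff.1 (h.hat_cont s hsm) _ hpos
    obtain ⟨r, hr1, hr2⟩ := exists_rat_btwn (show s < min s₂ (s + δ) from
      lt_min hs2 (by linarith))
    have hr2' := hr2.trans_le (min_le_left _ _)
    have hrm : (r : ℝ) ∈ c '' Ico 0 T :=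
      h.mem_of_le hs₂ ((h0.trans hs1.le).trans hr1.le) hr2'.le
    have h1 := hδ' hrm (by
      rw [Real.dist_eq, abs_of_pos (by linarith)]
      linarith [hr2.trans_le (min_le_right s₂ (s + δ))])
    rw [hrat r (hs1.trans hr1) hr2'] at h1
    exact lt_irrefl _ h1
  -- contradiction with strict growth
  set a : ℝ := s₁ + (s₂ - s₁) / 3 with ha
  set b : ℝ := s₁ + 2 * (s₂ - s₁) / 3 with hb
  have hsa : s₁ < a := by rw [ha]; linarith
  have hab : a < b := by rw [ha, hb]; linarith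
  have hbs : b < s₂ := by rw [hb]; linarith
  have ha0 : 0 ≤ a := h0.trans hsa.le
  obtain ⟨z, hz, hz'⟩ := h.strict a b ha0 hab
  have hbm : b ∈ c '' Ico 0 T := h.mem_of_le hs₂ (ha0.trans hab.le) hbs.le
  rw [h.dom_hat hbm] at hz'
  have h3 : z ∈ h.hat '' Icc 0 b := by
    by_contra h'
    exact hz' ⟨dom_sub_HH ha0 hz, h'⟩
  obtain ⟨σ, hσ, rfl⟩ := h3
  have haσ : a < σ := by
    by_contra hcon
    push Not at hcon
    exact h.hat_not_mem (h.mem_of_le hbm hσ.1 hσ.2) hcon hz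
  have h4 : h.hat σ = h.hat a := by
    rw [hreal σ (hsa.trans haσ) (hσ.2.trans_lt hbs), hreal a hsa (hab.trans hbs)]
  rw [h4] at hz
  exact h.hat_not_mem (h.mem_of_le hs₂ ha0 (hab.trans hbs).le) le_rfl hz

theorem arc (h : Ctx W η c T) : Arc W η c T h.hat where
  cont := h.hat_cont
  inj := by
    intro s₁ hs₁ s₂ hs₂ heq
    by_contra hne
    rcases lt_or_gt_of_ne hne with hlt | hlt
    · have h1 := h.core hs₂ (h.s_nonneg hs₁) hlt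
      rw [← heq] at h1
      exact h.hat_not_mem hs₁ le_rfl h1
    · have h1 := h.core hs₁ (h.s_nonneg hs₂) hlt
      rw [heq] at h1
      exact h.hat_not_mem hs₂ le_rfl h1
  im_pos := fun s hs h0 => dom_sub_HH le_rfl (h.core hs le_rfl h0)
  start := by rw [hat, h.tf_zero, h.gen.start]
  dom := fun s hs => h.dom_hat hs
  first := fun s hs => ⟨h.tf s, (h.tf_spec hs).1, (h.tf_spec hs).2.1, (h.tf_spec hs).2.2, rfl⟩
  mem := fun t ht him => h.mem ht him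

end Ctx

end Vale.Agent.P153.R2.ARCX
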