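import Vale.Agent.P153.R2.ARCX.Tip

/-!
# P153, block ARCX: `S_arc` from the strict monotonicity of the domains
-/

open Set Filter Topology Metric Vale.Agent.P164

namespace Vale.Agent.P153.R2.ARCX

theorem s_arc_of_strict (hst : ∀ W : ℝ → ℝ, Continuous W → StrictDom W) : S_arc := by
  intro W η c T hW hR hH hg
  have h : Ctx W η c T :=
    { hW := hW
      hR := hR
      hH := hH
      strict := hst W hW
      tip := fun s hs => exists_isTip hW (by exact_mod_cast hs)
      gen := hg }
  exact ⟨h.hat, h.arc⟩

end Vale.Agent.P153.R2.ARCX
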