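import Vale.Agent.P153.R2.ARCX.Arc
import Vale.Agent.P164.Bdl.B9

/-!
# P153, block ARCX: the domains of a Loewner chain decrease strictly
-/

open Set Filter Topology Vale.Agent.P164

namespace Vale.Agent.P153.R2.ARCX

theorem strictDom {W : ℝ → ℝ} (hW : Continuous W) : StrictDom W := by
  intro s t hs hst
  by_contra hcon
  push Not at hcon
  exact domain_ne hW hs hst (Subset.antisymm hcon fun z hz => dom_mono hst.le hz)

end Vale.Agent.P153.R2.ARCX
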