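import Vale.Agent.P153.R2.ARCX.ArcMain
import Vale.Agent.P153.R2.ARCX.Str

/-!
# P153, block ARCX: `S_arc`
-/

namespace Vale.Agent.P153.R2.ARCX

theorem s_arc : S_arc := s_arc_of_strict fun _ hW => strictDom hW

end Vale.Agent.P153.R2.ARCX
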