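import Vale.Agent.P164.X.Defs8

/-!
# P153, SLE side, block ARCX: the limit curve is the simple trace of its driving function

Definitions and statements (deterministic part). `loewnerDomain`, `unbComp`, `IsTrace` are those of
P164.
-/

open Set Filter Topology Vale.Agent.P164

namespace Vale.Agent.P153.R2.ARCX

/-- open upper half-plane -/
def HH : Set ℂ := {z : ℂ | 0 < z.im}

/-- (P1) (the same form as in `BESS.S_P1hull`) for every rational `s ≥ 0`, every real point except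
the starting point of the driver has a neighbourhood which is not touched by the hulls of the chain
restarted at time `s` -/
def NoSwallowR (W : ℝ → ℝ) : Prop :=
  ∀ s : ℚ, 0 ≤ s → ∀ x : ℝ, x ≠ 0 → ∀ T : ℝ,
    ∃ r > 0, ∀ z : ℂ, 0 < z.im → ‖z - x‖ < r → z ∈ loewnerDomain (fun u => W (s + u) - W s) T

/-- (P2) a dense set of points of the half-plane is never swallowed -/
def NoSwallowH (W : ℝ → ℝ) : Prop :=
  ∀ z ∈ HH, ∀ r : ℝ, 0 < r → ∃ w ∈ Metric.ball z r, ∀ t : ℝ, 0 ≤ t → w ∈ loewnerDomain W t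

/-- `η : [0,T) → closed half-plane` generates the chain of `W` with (Loewner) time change `c` -/
structure Gen (W : ℝ → ℝ) (η : ℝ → ℂ) (c : ℝ → ℝ) (T : ℝ) : Prop where
  pos : 0 < T
  cont : ContinuousOn η (Ico 0 T)
  im_nonneg : ∀ t ∈ Ico 0 T, 0 ≤ (η t).im
  start : η 0 = (W 0 : ℂ)
  contc : ContinuousOn c (Ico 0 T)
  mono : MonotoneOn c (Ico 0 T)
  c_zero : c 0 = 0
  dom : ∀ t ∈ Ico 0 T, loewnerDomain W (c t) = unbComp (HH \ η '' Icc 0 t)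

/-- a simple curve in the half-plane generating the chain of `W` with time change `c` -/
structure SGen (W : ℝ → ℝ) (η : ℝ → ℂ) (c : ℝ → ℝ) (T : ℝ) : Prop where
  pos : 0 < T
  cont : ContinuousOn η (Ico 0 T)
  inj : InjOn η (Ico 0 T)
  im_pos : ∀ t ∈ Ioo 0 T, 0 < (η t).im
  start : η 0 = (W 0 : ℂ)
  contc : ContinuousOn c (Ico 0 T)
  mono : StrictMonoOn c (Ico 0 T)
  c_zero : c 0 = 0
  dom : ∀ t ∈ Ico 0 T, loewnerDomain W (c t) = HH \ η '' Icc 0 t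

/-- the approximation hypothesis -/
structure Appr (Wn : ℕ → ℝ → ℝ) (ηn : ℕ → ℝ → ℂ) (cn : ℕ → ℝ → ℝ) (W : ℝ → ℝ) (η : ℝ → ℂ)
    (T : ℝ) : Prop where
  contWn : ∀ n, Continuous (Wn n)
  contW : Continuous W
  sgen : ∀ n, SGen (Wn n) (ηn n) (cn n) T
  drv : ∀ t : ℝ, TendstoUniformlyOn Wn W atTop (Icc 0 t)
  crv : ∀ t ∈ Ico 0 T, TendstoUniformlyOn ηn η atTop (Icc 0 t)

/-- `ηh` on `S = c '' [0,T)` is the simple trace of `W`, and `ηh s = η (first time with c = s)` -/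
structure Arc (W : ℝ → ℝ) (η : ℝ → ℂ) (c : ℝ → ℝ) (T : ℝ) (ηh : ℝ → ℂ) : Prop where
  cont : ContinuousOn ηh (c '' Ico 0 T)
  inj : InjOn ηh (c '' Ico 0 T)
  im_pos : ∀ s ∈ c '' Ico 0 T, 0 < s → 0 < (ηh s).im
  start : ηh 0 = (W 0 : ℂ)
  dom : ∀ s ∈ c '' Ico 0 T, loewnerDomain W s = HH \ ηh '' Icc 0 s
  first : ∀ s ∈ c '' Ico 0 T, ∃ t ∈ Ico 0 T, c t = s ∧ (∀ t' ∈ Ico 0 t, c t' < s) ∧ η t = ηh s
  /-- every point of the curve which lies in the open half-plane is on the arc already drawn -/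
  mem : ∀ t ∈ Ico 0 T, 0 < (η t).im → ∃ s ∈ Ioc 0 (c t), η t = ηh s

/-- HULL (block HULL, helper714) -/
def S_hull : Prop := ∀ (Wn : ℕ → ℝ → ℝ) (ηn : ℕ → ℝ → ℂ) (cn : ℕ → ℝ → ℝ) (W : ℝ → ℝ) (η : ℝ → ℂ)
    (T : ℝ), Appr Wn ηn cn W η T → ContinuousOn η (Ico 0 T) →
    ∃ c : ℝ → ℝ, Gen W η c T ∧ ∀ t ∈ Ico 0 T, Tendsto (fun n => cn n t) atTop (𝓝 (c t))

/-- ARC: the hulls are arcs -/
def S_arc : Prop := ∀ (W : ℝ → ℝ) (η : ℝ → ℂ) (c : ℝ → ℝ) (T : ℝ), Continuous W →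
    NoSwallowR W → NoSwallowH W → Gen W η c T → ∃ ηh : ℝ → ℂ, Arc W η c T ηh

/-- NB: no backtracking -/
def S_nb : Prop := ∀ (Wn : ℕ → ℝ → ℝ) (ηn : ℕ → ℝ → ℂ) (cn : ℕ → ℝ → ℝ) (W : ℝ → ℝ) (η : ℝ → ℂ)
    (c : ℝ → ℝ) (T : ℝ) (ηh : ℝ → ℂ), Appr Wn ηn cn W η T → Gen W η c T →
    (∀ t ∈ Ico 0 T, Tendsto (fun n => cn n t) atTop (𝓝 (c t))) → Arc W η c T ηh →
    ∀ t ∈ Ico 0 T, η t = ηh (c t)

end Vale.Agent.P153.R2.ARCX
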