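import Vale.Agent.P153.R2.ARCX.Defs
import Vale.Agent.P164.Bdl.B1

/-!
# P153, block ARCX: facts on the Loewner flow

Local homeomorphism, surjectivity, boundedness in both directions, semigroup property.
-/

open Set Filter Topology Metric Vale.Agent.P164

namespace Vale.Agent.P153.R2.ARCX

variable {W : ℝ → ℝ} {s t : ℝ}

theorem mem_HH {z : ℂ} : z ∈ HH ↔ 0 < z.im := Iff.rfl

theorem dom_sub_HH (hs : 0 ≤ s) : loewnerDomain W s ⊆ HH := by
  rintro z ⟨g, hg⟩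
  exact hg.im_pos hs

theorem isOpen_dom (hW : Continuous W) (hs : 0 ≤ s) : IsOpen (loewnerDomain W s) :=
  isOpen_domain hs hW.continuousOn

theorem fl_im_pos {z : ℂ} (hs : 0 ≤ s) (hz : z ∈ loewnerDomain W s) : 0 < (flow W s z).im :=
  flow_im_pos hz ⟨hs, le_rfl⟩

theorem fl_map_nhds (hW : Continuous W) (hs : 0 ≤ s) {z : ℂ} (hz : z ∈ loewnerDomain W s) :
    map (flow W s) (𝓝 z) = 𝓝 (flow W s z) := by
  have hd : DifferentiableOn ℂ (flow W s) (loewnerDomain W s) := fun w hw =>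
    (hasDerivAt_flow hs hW.continuousOn hw).differentiableAt.differentiableWithinAt
  have ha : AnalyticAt ℂ (flow W s) z :=
    hd.analyticAt ((isOpen_dom hW hs).mem_nhds hz)
  have hst : HasStrictDerivAt (flow W s) (dflow W s z) z := by
    have h1 := ha.hasStrictDerivAt
    rwa [(hasDerivAt_flow hs hW.continuousOn hz).deriv] at h1
  exact hst.map_nhds_eq (Complex.exp_ne_zero _)

theorem fl_cont (hW : Continuous W) (hs : 0 ≤ s) : ContinuousOn (flow W s) (loewnerDomain W s) :=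
  fun _ hw => (hasDerivAt_flow hs hW.continuousOn hw).continuousAt.continuousWithinAt

theorem fl_surj (hW : Continuous W) (hs : 0 ≤ s) {ξ : ℂ} (hξ : 0 < ξ.im) :
    ∃ z ∈ loewnerDomain W s, flow W s z = ξ := by
  obtain ⟨z, g, hg, hgs⟩ := exists_preimage hs hW.continuousOn (w := ξ + (W s : ℂ))
    (by simpa using hξ)
  exact ⟨z, ⟨g, hg⟩, by rw [flow_eq hs hg, hgs]; ring⟩

/-- convergence can be read off after applying the flow -/
theorem fl_tendsto_iff (hW : Continuous W) (hs : 0 ≤ s) {ι : Type*} {l : Filter ι} {u : ι → ℂ}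
    (hu : ∀ᶠ i in l, u i ∈ loewnerDomain W s) {z : ℂ} (hz : z ∈ loewnerDomain W s)
    (h : Tendsto (fun i => flow W s (u i)) l (𝓝 (flow W s z))) : Tendsto u l (𝓝 z) := by
  intro V hV
  have hV' : V ∩ loewnerDomain W s ∈ 𝓝 z :=
    inter_mem hV ((isOpen_dom hW hs).mem_nhds hz)
  have h1 : flow W s '' (V ∩ loewnerDomain W s) ∈ 𝓝 (flow W s z) := by
    rw [← fl_map_nhds hW hs hz]
    exact image_mem_map hV'
  rw [mem_map]
  filter_upwards [h h1, hu] with i hi hi'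
  obtain ⟨w, hw, hwe⟩ := hi
  have := flow_injOn hs hW.continuousOn hw.2 hi' hwe
  rw [mem_preimage, ← this]
  exact hw.1

/-! ### boundedness -/

/-- a solution which stays outside a big disc moves slowly -/
theorem sol_slow {z : ℂ} {g : ℝ → ℂ} (hg : IsLoewnerSol W z t g) {M B a b : ℝ}
    (hM : ∀ u ∈ Icc 0 t, |W u| ≤ M) (hB : M + 1 ≤ B) (ha : 0 ≤ a) (hb : b ≤ t) (hab : a ≤ b)
    (h : ∀ u ∈ Icc a b, B ≤ ‖g u‖) : ‖g b - g a‖ ≤ 2 * (b - a) := by
  have h1 : ∀ u ∈ Icc a b, HasDerivWithinAt g (2 / (g u - (W u : ℂ))) (Icc a b) u := fun u hu =>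
    (hg.2 u ⟨ha.trans hu.1, hu.2.trans hb⟩).2.mono (Icc_subset_Icc ha hb)
  have h2 : ∀ u ∈ Ico a b, ‖2 / (g u - (W u : ℂ))‖ ≤ 2 := by
    intro u hu
    have h3 := h u ⟨hu.1, hu.2.le⟩
    have h4 := hM u ⟨ha.trans hu.1, hu.2.le.trans hb⟩
    have h5 : 1 ≤ ‖g u - (W u : ℂ)‖ := by
      have := norm_sub_norm_le (g u) (W u : ℂ)
      rw [Complex.norm_real, Real.norm_eq_abs] at this
      linarith
    rw [norm_div]
    have h6 : ‖(2 : ℂ)‖ = 2 := by simp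
    rw [h6, div_le_iff₀ (by linarith)]
    linarith
  have h7 := norm_image_sub_le_of_norm_deriv_le_segment' h1 h2 b ⟨hab, le_rfl⟩
  exact h7

theorem sol_bound {z : ℂ} {g : ℝ → ℂ} (ht : 0 ≤ t) (hg : IsLoewnerSol W z t g) {M B : ℝ}
    (hM : ∀ u ∈ Icc 0 t, |W u| ≤ M) (hB : M + 1 ≤ B) (hz : ‖z‖ ≤ B) : ‖g t‖ ≤ B + 2 * t := by
  by_cases hc : ‖g t‖ ≤ B
  · linarith
  push Not at hc
  -- last time in the disc
  have hcont : ContinuousOn (fun u => ‖g u‖) (Icc 0 t) := hg.continuousOn.norm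
  set S : Set ℝ := Icc 0 t ∩ {u | ‖g u‖ ≤ B} with hS
  have hScl : IsClosed S := by
    have := hcont.preimage_isClosed_of_isClosed isClosed_Icc (isClosed_Iic (a := B))
    exact this
  have hSc : IsCompact S := isCompact_Icc.of_isClosed_subset hScl inter_subset_left
  have hSne : S.Nonempty := ⟨0, ⟨le_rfl, ht⟩, by
    show ‖g 0‖ ≤ B
    rw [hg.1]; exact hz⟩
  obtain ⟨a, ha, hamax⟩ := hSc.exists_isMaxOn hSne continuousOn_id
  have hat : a < t := by
    rcases lt_or_eq_of_le ha.1.2 with h | h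
    · exact h
    · exact absurd ha.2 (by rw [h]; exact not_le.2 hc)
  have hout : ∀ u ∈ Ioc a t, B < ‖g u‖ := by
    intro u hu
    by_contra hcon
    push Not at hcon
    have := hamax (show u ∈ S from ⟨⟨ha.1.1.trans hu.1.le, hu.2⟩, hcon⟩)
    exact absurd this (not_le.2 hu.1)
  have haB : B ≤ ‖g a‖ := by
    have h1 : Tendsto (fun u => ‖g u‖) (𝓝[>] a) (𝓝 ‖g a‖) := by
      have h2 := (hcont a ha.1).mono_left (nhdsWithin_mono a (show Ioc a t ⊆ Icc 0 t from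
        fun u hu => ⟨ha.1.1.trans hu.1.le, hu.2⟩))
      rwa [nhdsWithin_Ioc_eq_nhdsGT hat] at h2
    refine ge_of_tendsto h1 ?_
    filter_upwards [Ioc_mem_nhdsGT hat] with u hu
    exact (hout u hu).le
  have h3 := sol_slow hg hM hB ha.1.1 le_rfl hat.le (fun u hu => by
    rcases eq_or_lt_of_le hu.1 with h | h
    · rw [← h]; exact haB
    · exact (hout u ⟨h, hu.2⟩).le)
  have h4 : ‖g a‖ ≤ B := ha.2
  have h5 : ‖g t‖ ≤ ‖g t - g a‖ + ‖g a‖ := by
    calc ‖g t‖ = ‖(g t - g a) + g a‖ := by congr 1; ring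
      _ ≤ _ := norm_add_le _ _
  have := ha.1.1
  linarith

theorem sol_bound_inv {z : ℂ} {g : ℝ → ℂ} (ht : 0 ≤ t) (hg : IsLoewnerSol W z t g) {M B : ℝ}
    (hM : ∀ u ∈ Icc 0 t, |W u| ≤ M) (hB : M + 1 ≤ B) (hz : ‖g t‖ ≤ B) : ‖z‖ ≤ B + 2 * t := by
  by_cases hc : ‖z‖ ≤ B
  · linarith
  push Not at hc
  have hcont : ContinuousOn (fun u => ‖g u‖) (Icc 0 t) := hg.continuousOn.norm
  set S : Set ℝ := Icc 0 t ∩ {u | ‖g u‖ ≤ B} with hS
  have hScl : IsClosed S := by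
    have := hcont.preimage_isClosed_of_isClosed isClosed_Icc (isClosed_Iic (a := B))
    exact this
  have hSc : IsCompact S := isCompact_Icc.of_isClosed_subset hScl inter_subset_left
  have hSne : S.Nonempty := ⟨t, ⟨ht, le_rfl⟩, hz⟩
  obtain ⟨a, ha, hamin⟩ := hSc.exists_isMinOn hSne continuousOn_id
  have h0a : 0 < a := by
    rcases lt_or_eq_of_le ha.1.1 with h | h
    · exact h
    · have h6 : ‖g a‖ ≤ B := ha.2
      rw [← h, hg.1] at h6
      exact absurd h6 (not_le.2 hc)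
  have hout : ∀ u ∈ Ico 0 a, B < ‖g u‖ := by
    intro u hu
    by_contra hcon
    push Not at hcon
    have := hamin (show u ∈ S from ⟨⟨hu.1, hu.2.le.trans ha.1.2⟩, hcon⟩)
    exact absurd this (not_le.2 hu.2)
  have haB : B ≤ ‖g a‖ := by
    have h1 : Tendsto (fun u => ‖g u‖) (𝓝[<] a) (𝓝 ‖g a‖) := by
      have h2 := (hcont a ha.1).mono_left (nhdsWithin_mono a (show Ico 0 a ⊆ Icc 0 t from
        fun u hu => ⟨hu.1, hu.2.le.trans ha.1.2⟩))
      rwa [nhdsWithin_Ico_eq_nhdsLT h0a] at h2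
    refine ge_of_tendsto h1 ?_
    filter_upwards [Ico_mem_nhdsLT h0a] with u hu
    exact (hout u hu).le
  have h3 := sol_slow hg hM hB le_rfl ha.1.2 h0a.le (fun u hu => by
    rcases eq_or_lt_of_le hu.2 with h | h
    · rw [h]; exact haB
    · exact (hout u ⟨hu.1, h⟩).le)
  have h4 : ‖g a‖ ≤ B := ha.2
  rw [hg.1] at h3
  have h5 : ‖z‖ ≤ ‖g a - z‖ + ‖g a‖ := by
    calc ‖z‖ = ‖g a - (g a - z)‖ := by congr 1; ring
      _ ≤ ‖g a‖ + ‖g a - z‖ := norm_sub_le _ _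
      _ = _ := by ring
  have := ha.1.2
  linarith

theorem exists_M (hW : Continuous W) (t : ℝ) : ∃ M : ℝ, 0 ≤ M ∧ ∀ u ∈ Icc 0 t, |W u| ≤ M := by
  obtain ⟨M, hM⟩ := isCompact_Icc.exists_bound_of_continuousOn (s := Icc 0 t) hW.continuousOn
  exact ⟨max M 0, le_max_right _ _, fun u hu => (hM u hu).trans (le_max_left _ _)⟩

/-- the flow is bounded on bounded sets -/
theorem fl_bound (hW : Continuous W) (hs : 0 ≤ s) (R : ℝ) :
    ∃ R' : ℝ, ∀ z ∈ loewnerDomain W s, ‖z‖ ≤ R → ‖flow W s z‖ ≤ R' := by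
  obtain ⟨M, hM0, hM⟩ := exists_M hW s
  refine ⟨max R (M + 1) + 2 * s + M, ?_⟩
  rintro z ⟨g, hg⟩ hz
  rw [flow_eq hs hg]
  have h1 := sol_bound hs hg hM (le_max_right R (M + 1)) (hz.trans (le_max_left _ _))
  have h2 := hM s ⟨hs, le_rfl⟩
  calc ‖g s - (W s : ℂ)‖ ≤ ‖g s‖ + ‖(W s : ℂ)‖ := norm_sub_le _ _
    _ ≤ _ := by rw [Complex.norm_real, Real.norm_eq_abs]; linarith

/-- the inverse of the flow is bounded on bounded sets -/
theorem fl_bound_inv (hW : Continuous W) (hs : 0 ≤ s) (R : ℝ) :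
    ∃ R' : ℝ, ∀ z ∈ loewnerDomain W s, ‖flow W s z‖ ≤ R → ‖z‖ ≤ R' := by
  obtain ⟨M, hM0, hM⟩ := exists_M hW s
  refine ⟨max (R + M) (M + 1) + 2 * s, ?_⟩
  rintro z ⟨g, hg⟩ hz
  rw [flow_eq hs hg] at hz
  have h2 := hM s ⟨hs, le_rfl⟩
  refine sol_bound_inv hs hg hM (le_max_right (R + M) (M + 1)) (le_trans ?_ (le_max_left _ _))
  calc ‖g s‖ = ‖(g s - (W s : ℂ)) + (W s : ℂ)‖ := by congr 1; ring
    _ ≤ ‖g s - (W s : ℂ)‖ + ‖(W s : ℂ)‖ := norm_add_le _ _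
    _ ≤ _ := by rw [Complex.norm_real, Real.norm_eq_abs]; linarith

/-! ### semigroup -/

theorem dom_shift_iff (hs : 0 ≤ s) (hst : s ≤ t) {z : ℂ} (hz : z ∈ loewnerDomain W s) :
    z ∈ loewnerDomain W t ↔
      flow W s z ∈ loewnerDomain (fun u => W (s + u) - W s) (t - s) := by
  constructor
  · rintro ⟨g, hg⟩
    rw [flow_eq hs (hg.restrict hst)]
    exact ⟨_, hg.shift hs⟩
  · rintro ⟨g', hg'⟩
    obtain ⟨g, hg⟩ := hz
    rw [flow_eq hs hg] at hg'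
    have := hg.concat hs (sub_nonneg.2 hst) hg'
    rw [show s + (t - s) = t by ring] at this
    exact ⟨_, this⟩

end Vale.Agent.P153.R2.ARCX
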