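import Vale.Agent.P164.Bdl.B1
import Vale.Agent.P153.R2.TOP.Sep
import Vale.Agent.P153.R2.R1.Half
import Mathlib.Analysis.Complex.CauchyIntegral
import Mathlib.Analysis.Calculus.InverseFunctionTheorem.Deriv

/-!
# P153, block ARCX (f): the inverse Loewner map and crosscuts

* `Finv V t` : the inverse of the centred Loewner map `z ↦ Zf V z t = g_t z - V t`, a conformal map
  from the upper half-plane onto `loewnerDomain V t`.
* `not_joined_union` : half circles around `0` of radius `ρ` are mapped to crosscuts which separate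
  (together with the piece of the boundary between its ends) inner from outer points.
-/

open Set Metric Filter Topology MeasureTheory Vale.Agent.P164

namespace Vale.Agent.P153.R2.ARCX

/-- The inverse of the centred Loewner map. -/
noncomputable def Finv (V : ℝ → ℝ) (t : ℝ) (w : ℂ) : ℂ :=
  open Classical in
  if h : ∃ z, z ∈ loewnerDomain V t ∧ Zf V z t = w then Classical.choose h else 0

variable {V : ℝ → ℝ} {t : ℝ}

lemma Finv_spec (ht : 0 ≤ t) (hV : Continuous V) {w : ℂ} (hw : 0 < w.im) :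
    Finv V t w ∈ loewnerDomain V t ∧ Zf V (Finv V t w) t = w := by
  have h : ∃ z, z ∈ loewnerDomain V t ∧ Zf V z t = w := by
    obtain ⟨z, g, hg, hgw⟩ := exists_preimage (W := V) ht hV.continuousOn
      (w := w + (V t : ℂ)) (by simpa using hw)
    refine ⟨z, ⟨g, hg⟩, ?_⟩
    rw [Zf_eq, gf_eq hg ⟨ht, le_rfl⟩, hgw]
    ring
  rw [Finv, dif_pos h]
  exact Classical.choose_spec h

lemma Finv_mem (ht : 0 ≤ t) (hV : Continuous V) {w : ℂ} (hw : 0 < w.im) :
    Finv V t w ∈ loewnerDomain V t := (Finv_spec ht hV hw).1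

lemma Zf_Finv (ht : 0 ≤ t) (hV : Continuous V) {w : ℂ} (hw : 0 < w.im) :
    Zf V (Finv V t w) t = w := (Finv_spec ht hV hw).2

lemma Finv_Zf (ht : 0 ≤ t) (hV : Continuous V) {z : ℂ} (hz : z ∈ loewnerDomain V t) :
    Finv V t (Zf V z t) = z := by
  obtain ⟨h1, h2⟩ := Finv_spec ht hV (Zf_im_pos ht hz)
  exact flow_injOn ht hV.continuousOn h1 hz h2

lemma Finv_injOn (ht : 0 ≤ t) (hV : Continuous V) : InjOn (Finv V t) {w | 0 < w.im} := by
  intro w hw w' hw' h
  rw [← Zf_Finv ht hV hw, h, Zf_Finv ht hV hw']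

lemma Finv_image (ht : 0 ≤ t) (hV : Continuous V) :
    Finv V t '' {w | 0 < w.im} = loewnerDomain V t := by
  apply Subset.antisymm
  · rintro _ ⟨w, hw, rfl⟩
    exact Finv_mem ht hV hw
  · intro z hz
    exact ⟨Zf V z t, Zf_im_pos ht hz, Finv_Zf ht hV hz⟩

lemma Zf_differentiableOn (ht : 0 ≤ t) (hV : Continuous V) :
    DifferentiableOn ℂ (fun z => Zf V z t) (loewnerDomain V t) := fun _ hz =>
  (hasDerivAt_flow ht hV.continuousOn hz).differentiableAt.differentiableWithinAt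

lemma Zf_continuousOn (ht : 0 ≤ t) (hV : Continuous V) :
    ContinuousOn (fun z => Zf V z t) (loewnerDomain V t) := (Zf_differentiableOn ht hV).continuousOn

lemma isOpen_domain_nb (ht : 0 ≤ t) (hV : Continuous V) : IsOpen (loewnerDomain V t) :=
  isOpen_domain ht hV.continuousOn

lemma Zf_hasDerivAt (ht : 0 ≤ t) (hV : Continuous V) {z : ℂ} (hz : z ∈ loewnerDomain V t) :
    HasDerivAt (fun z => Zf V z t) (dflow V t z) z := hasDerivAt_flow ht hV.continuousOn hz

lemma Finv_continuousAt (ht : 0 ≤ t) (hV : Continuous V) {w : ℂ} (hw : 0 < w.im) :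
    ContinuousAt (Finv V t) w := by
  obtain ⟨h1, h2⟩ := Finv_spec ht hV hw
  have hd : HasStrictDerivAt (fun z => Zf V z t) (dflow V t (Finv V t w)) (Finv V t w) := by
    have ha : AnalyticAt ℂ (fun z => Zf V z t) (Finv V t w) :=
      (Zf_differentiableOn ht hV).analyticAt ((isOpen_domain_nb ht hV).mem_nhds h1)
    have h3 := ha.hasStrictDerivAt
    rwa [(Zf_hasDerivAt ht hV h1).deriv] at h3
  have hmap := hd.map_nhds_eq (Complex.exp_ne_zero _)
  intro N hN
  have hN' : N ∩ loewnerDomain V t ∈ 𝓝 (Finv V t w) :=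
    inter_mem hN ((isOpen_domain_nb ht hV).mem_nhds h1)
  have h4 : (fun z => Zf V z t) '' (N ∩ loewnerDomain V t) ∈ 𝓝 w := by
    have h5 := image_mem_map (m := fun z => Zf V z t) hN'
    rw [hmap] at h5
    simpa only [h2] using h5
  refine mem_map.2 (mem_of_superset h4 ?_)
  rintro _ ⟨z, ⟨hzN, hz⟩, rfl⟩
  show Finv V t (Zf V z t) ∈ N
  rwa [Finv_Zf ht hV hz]

lemma Finv_continuousOn (ht : 0 ≤ t) (hV : Continuous V) :
    ContinuousOn (Finv V t) {w | 0 < w.im} := fun _ hw =>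
  (Finv_continuousAt ht hV hw).continuousWithinAt

lemma Finv_differentiableOn (ht : 0 ≤ t) (hV : Continuous V) :
    DifferentiableOn ℂ (Finv V t) {w | 0 < w.im} := by
  intro w hw
  have hw' : 0 < w.im := hw
  have h := HasDerivAt.of_local_left_inverse (f := fun z => Zf V z t) (g := Finv V t)
    (f' := dflow V t (Finv V t w)) (a := w) (Finv_continuousAt ht hV hw')
    (hasDerivAt_flow ht hV.continuousOn (Finv_mem ht hV hw')) (Complex.exp_ne_zero _) ?_
  · exact h.differentiableAt.differentiableWithinAt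
  · have : {w : ℂ | 0 < w.im} ∈ 𝓝 w :=
      (isOpen_lt continuous_const Complex.continuous_im).mem_nhds hw
    filter_upwards [this] with y hy
    exact Zf_Finv ht hV hy

lemma convex_HH : Convex ℝ {w : ℂ | 0 < w.im} := convex_halfSpace_im_gt 0

lemma isPathConnected_dom (ht : 0 ≤ t) (hV : Continuous V) :
    IsPathConnected (loewnerDomain V t) := by
  rw [← Finv_image ht hV]
  refine IsPathConnected.image' ?_ (Finv_continuousOn ht hV)
  exact convex_HH.isPathConnected ⟨Complex.I, by simp⟩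

/-- Far points are alive and stay far away. -/
lemma far_point (hV : Continuous V) {z : ℂ} (hz : 0 < z.im) {ϰ : ℝ} (hϰ : 0 < ϰ) (ht : 0 ≤ t)
    (hfar : ϰ ≤ ‖z - (V 0 : ℂ)‖) (hT : t ≤ ϰ ^ 2 / 64)
    (hosc : ∀ u ∈ Icc 0 t, |V u - V 0| ≤ ϰ / 8) :
    z ∈ loewnerDomain V t ∧ ϰ / 2 < ‖Zf V z t‖ := by
  have h0 : z ∈ loewnerDomain V 0 := dom_zero.2 hz
  have hZ : ϰ ≤ ‖Zf V z 0‖ := by rwa [Zf_zero hz]
  have h1 := one_step_alive hϰ hV le_rfl ht h0 hZ (by simpa using hT) le_rfl hosc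
  exact ⟨h1, (one_step_move hϰ hV le_rfl ht h1 hZ (by simpa using hT) le_rfl hosc t
    ⟨ht, le_rfl⟩).1⟩

/-- Points which die soon are close to the driving function. -/
lemma near_of_dying (hV : Continuous V) {z : ℂ} {ϰ T : ℝ} (hϰ : 0 < ϰ) (ht : 0 ≤ t) (htT : t ≤ T)
    (hz : z ∈ loewnerDomain V t) (hz' : z ∉ loewnerDomain V T) (hT : T - t ≤ ϰ ^ 2 / 64)
    (hosc : ∀ u ∈ Icc t T, |V u - V t| ≤ ϰ / 8) : ‖Zf V z t‖ < ϰ := by
  by_contra hcon
  exact hz' (one_step_alive hϰ hV ht htT hz (not_lt.1 hcon) hT le_rfl hosc)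

/-- The crosscut: the image of the half circle of radius `ρ`. -/
noncomputable def cut (V : ℝ → ℝ) (t ρ : ℝ) : Set ℂ := Finv V t '' {w | 0 < w.im ∧ ‖w‖ = ρ}

lemma cut_subset (ht : 0 ≤ t) (hV : Continuous V) (ρ : ℝ) : cut V t ρ ⊆ loewnerDomain V t := by
  rintro _ ⟨w, hw, rfl⟩
  exact Finv_mem ht hV hw.1

lemma cut_nonempty (V : ℝ → ℝ) (t : ℝ) {ρ : ℝ} (hρ : 0 < ρ) : (cut V t ρ).Nonempty := by
  have h : (ρ : ℂ) * Complex.I ∈ {w : ℂ | 0 < w.im ∧ ‖w‖ = ρ} :=
    ⟨by simpa using hρ, by simp [abs_of_pos hρ]⟩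
  exact ⟨_, mem_image_of_mem _ h⟩

/-- A bounded crosscut reaches the boundary. -/
lemma closure_cut_meets (ht : 0 ≤ t) (hV : Continuous V) {ρ : ℝ} (hρ : 0 < ρ)
    (hb : Bornology.IsBounded (cut V t ρ)) :
    (closure (cut V t ρ) ∩ (loewnerDomain V t)ᶜ).Nonempty := by
  by_contra hcon
  rw [not_nonempty_iff_eq_empty, ← sdiff_eq, sdiff_eq_empty] at hcon
  have hc : IsCompact (closure (cut V t ρ)) := hb.isCompact_closure
  have him : IsCompact ((fun z => Zf V z t) '' closure (cut V t ρ)) :=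
    hc.image_of_continuousOn ((Zf_continuousOn ht hV).mono hcon)
  have h1 : {w : ℂ | 0 < w.im ∧ ‖w‖ = ρ} ⊆ (fun z => Zf V z t) '' closure (cut V t ρ) :=
    fun w hw => ⟨Finv V t w, subset_closure (mem_image_of_mem _ hw), Zf_Finv ht hV hw.1⟩
  have h2 : (ρ : ℂ) ∈ closure {w : ℂ | 0 < w.im ∧ ‖w‖ = ρ} := by
    have hcont : Continuous fun θ : ℝ => (ρ : ℂ) * Complex.exp (θ * Complex.I) := by fun_prop
    have h3 : (0 : ℝ) ∈ closure (Ioo (0 : ℝ) Real.pi) := by
      rw [closure_Ioo Real.pi_pos.ne]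
      exact ⟨le_rfl, Real.pi_pos.le⟩
    have h4 := hcont.continuousAt.continuousWithinAt.mem_closure_image h3
    simp only [Complex.ofReal_zero, zero_mul, Complex.exp_zero, mul_one] at h4
    refine closure_mono ?_ h4
    rintro _ ⟨θ, hθ, rfl⟩
    refine ⟨?_, ?_⟩
    · show 0 < ((ρ : ℂ) * Complex.exp (θ * Complex.I)).im
      rw [Complex.im_ofReal_mul, Complex.exp_ofReal_mul_I_im]
      exact mul_pos hρ (Real.sin_pos_of_mem_Ioo hθ)
    · simp [Complex.norm_exp_ofReal_mul_I, abs_of_pos hρ]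
  obtain ⟨z, hz, hzρ⟩ := closure_minimal h1 him.isClosed h2
  have h5 := Zf_im_pos ht (hcon hz)
  rw [show Zf V z t = (ρ : ℂ) from hzρ] at h5
  simp at h5

lemma not_joined_cut (ht : 0 ≤ t) (hV : Continuous V) {ρ : ℝ} {x y : ℂ}
    (hx : ‖Zf V x t‖ < ρ) (hy : ρ < ‖Zf V y t‖) :
    ¬ JoinedIn (loewnerDomain V t \ cut V t ρ) x y := by
  rintro ⟨γ, hγ⟩
  have hcont : Continuous fun s => ‖Zf V (γ s) t‖ := by
    have h1 : ContinuousOn (fun s => Zf V (γ s) t) univ :=
      (Zf_continuousOn ht hV).comp γ.continuous.continuousOn fun s _ => (hγ s).1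
    exact (continuousOn_univ.1 h1).norm
  obtain ⟨s, -, hs⟩ := intermediate_value_Icc (a := (0 : unitInterval)) (b := 1) zero_le_one
    hcont.continuousOn (show ρ ∈ Icc (‖Zf V (γ 0) t‖) (‖Zf V (γ 1) t‖) by
      rw [γ.source, γ.target]
      exact ⟨hx.le, hy.le⟩)
  refine (hγ s).2 ⟨Zf V (γ s) t, ⟨Zf_im_pos ht (hγ s).1, hs⟩, Finv_Zf ht hV (hγ s).1⟩

/-- A crosscut together with a piece of the boundary separates inner and outer points. -/
lemma not_joined_union (ht : 0 ≤ t) (hV : Continuous V) {ρ : ℝ} {x y : ℂ}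
    (hxd : x ∈ loewnerDomain V t) (hyd : y ∈ loewnerDomain V t)
    (hx : ‖Zf V x t‖ < ρ) (hy : ρ < ‖Zf V y t‖) (hb : Bornology.IsBounded (cut V t ρ))
    {B' : Set ℂ} (hB' : IsCompact B') (hpre : IsPreconnected B')
    (hsub : B' ⊆ (loewnerDomain V t)ᶜ)
    (hcl : closure (cut V t ρ) ∩ (loewnerDomain V t)ᶜ ⊆ B') :
    ¬ JoinedIn (closure (cut V t ρ) ∪ B')ᶜ x y := by
  intro hj
  have hA : IsCompact (closure (cut V t ρ) ∪ B') := hb.isCompact_closure.union hB'
  have hB : IsClosed (loewnerDomain V t)ᶜ := (isOpen_domain_nb ht hV).isClosed_compl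
  have hcap : (closure (cut V t ρ) ∪ B') ∩ (loewnerDomain V t)ᶜ = B' := by
    rw [union_inter_distrib_right]
    apply Subset.antisymm
    · exact union_subset hcl inter_subset_left
    · exact fun z hz => Or.inr ⟨hz, hsub hz⟩
  have h2 : JoinedIn ((loewnerDomain V t)ᶜ)ᶜ x y := by
    rw [compl_compl]
    exact (isPathConnected_dom ht hV).joinedIn x hxd y hyd
  have h3 := P153.TOP.janiszewski_closed hA hB (by rwa [hcap]) hj h2
  refine not_joined_cut ht hV hx hy (h3.mono ?_)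
  intro z hz
  rw [mem_compl_iff, mem_union, not_or] at hz
  refine ⟨not_not.1 hz.2, fun h => hz.1 (Or.inl (subset_closure h))⟩

end Vale.Agent.P153.R2.ARCX
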