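import Vale.Agent.P153.R2.ARCX.Defs
import Vale.Agent.P153.R2.ARCX.NbInv

/-!
# P153, block ARCX (f): no backtracking

Let `s0` be the first time with capacity `c s0` and `c t = c s0`, `t > s0`. A short crosscut of the
`n`-th slit domain at the time `s0`, around the tip, encloses `ηn n t` and also `ηn n t'` for `t'`
slightly larger than `s0`. The first property of the limit, that `η s0` is not in the closure of
the hulls at earlier times, forces the crosscut to be near `η s0` and forces both its ends to be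
`ηn n σ` with `σ` close to `s0`; by Janiszewski `ηn n t` is near `η s0`.
-/

open Set Metric Filter Topology MeasureTheory Vale.Agent.P164

namespace Vale.Agent.P153.R2.ARCX

section Aux

variable {Wn : ℕ → ℝ → ℝ} {W : ℝ → ℝ} {S : ℝ}

lemma equi_osc (hW : Continuous W) (h : TendstoUniformlyOn Wn W atTop (Icc 0 S)) {r : ℝ}
    (hr : 0 < r) : ∃ ω > 0, ∀ᶠ n in atTop, ∀ u ∈ Icc 0 S, ∀ v ∈ Icc 0 S, |u - v| < ω →
      |Wn n u - Wn n v| < r := by
  have h1 := isCompact_Icc.uniformContinuousOn_of_continuous (hW.continuousOn (s := Icc 0 S))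
  obtain ⟨ω, hω, H⟩ := Metric.uniformContinuousOn_iff.1 h1 (r / 3) (by positivity)
  refine ⟨ω, hω, ?_⟩
  filter_upwards [Metric.tendstoUniformlyOn_iff.1 h (r / 3) (by positivity)] with n hn
  intro u hu v hv huv
  have h2 := hn u hu
  have h3 := hn v hv
  have h4 := H u hu v hv huv
  rw [Real.dist_eq] at h2 h3 h4
  rw [abs_lt] at *
  constructor <;> linarith [h2.1, h2.2, h3.1, h3.2, h4.1, h4.2]

lemma bound_osc (hW : Continuous W) (h : TendstoUniformlyOn Wn W atTop (Icc 0 S)) :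
    ∃ M > 0, ∀ᶠ n in atTop, ∀ u ∈ Icc 0 S, |Wn n u - Wn n 0| ≤ M ∧ |Wn n 0| ≤ M := by
  obtain ⟨M, hM⟩ := (isCompact_Icc (a := (0 : ℝ)) (b := S)).exists_bound_of_continuousOn
    hW.continuousOn
  refine ⟨2 * (|M| + 1), by positivity, ?_⟩
  filter_upwards [Metric.tendstoUniformlyOn_iff.1 h 1 one_pos] with n hn
  intro u hu
  have h0 : (0 : ℝ) ∈ Icc 0 S := ⟨le_rfl, hu.1.trans hu.2⟩
  have h2 := hn u hu
  have h3 := hn 0 h0
  have h4 := hM u hu
  have h5 := hM 0 h0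
  have h6 := le_abs_self M
  rw [Real.dist_eq] at h2 h3
  rw [Real.norm_eq_abs] at h4 h5
  rw [abs_lt] at h2 h3
  rw [abs_le] at h4 h5
  constructor
  · rw [abs_le]
    constructor <;> linarith [h2.1, h2.2, h3.1, h3.2, h4.1, h4.2, h5.1, h5.2]
  · rw [abs_le]
    constructor <;> linarith [h2.1, h2.2, h3.1, h3.2, h4.1, h4.2, h5.1, h5.2]

end Aux

variable {Wn : ℕ → ℝ → ℝ} {ηn : ℕ → ℝ → ℂ} {cn : ℕ → ℝ → ℝ} {W : ℝ → ℝ} {η : ℝ → ℂ}
  {c : ℝ → ℝ} {T : ℝ}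

lemma SGen.not_mem_dom {V : ℝ → ℝ} {γ : ℝ → ℂ} {a : ℝ → ℝ} (h : SGen V γ a T) {s t : ℝ}
    (ht : t ∈ Ico 0 T) (hs : s ∈ Icc 0 t) : γ s ∉ loewnerDomain V (a t) := by
  rw [h.dom t ht]
  exact fun h' => h'.2 ⟨s, hs, rfl⟩

lemma SGen.mem_dom {V : ℝ → ℝ} {γ : ℝ → ℂ} {a : ℝ → ℝ} (h : SGen V γ a T) {s t : ℝ}
    (hs : 0 ≤ s) (hst : s < t) (ht : t < T) : γ t ∈ loewnerDomain V (a s) := by
  rw [h.dom s ⟨hs, hst.trans ht⟩]
  refine ⟨h.im_pos t ⟨hs.trans_lt hst, ht⟩, ?_⟩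
  rintro ⟨u, hu, he⟩
  have := h.inj ⟨hu.1, (hu.2.trans_lt hst).trans ht⟩ ⟨hs.trans hst.le, ht⟩ he
  linarith [hu.2]

lemma SGen.nonneg {V : ℝ → ℝ} {γ : ℝ → ℂ} {a : ℝ → ℝ} (h : SGen V γ a T) {s : ℝ}
    (hs : s ∈ Ico 0 T) : 0 ≤ a s := by
  have := h.mono.monotoneOn (a := 0) (b := s) ⟨le_rfl, h.pos⟩ hs hs.1
  rwa [h.c_zero] at this

lemma SGen.le {V : ℝ → ℝ} {γ : ℝ → ℂ} {a : ℝ → ℝ} (h : SGen V γ a T) {s t : ℝ}
    (hs : 0 ≤ s) (hst : s ≤ t) (ht : t < T) : a s ≤ a t :=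
  h.mono.monotoneOn ⟨hs, hst.trans_lt ht⟩ ⟨hs.trans hst, ht⟩ hst

lemma Gen.disj {W : ℝ → ℝ} (h : Gen W η c T) {t : ℝ} (ht : t ∈ Ico 0 T) {s : ℝ}
    (hs : s ∈ Icc 0 t) : η s ∉ loewnerDomain W (c t) := by
  rw [h.dom t ht]
  exact fun h' => h'.1.2 ⟨s, hs, rfl⟩

/-- Level `0`. -/
theorem nb_zero (hA : Appr Wn ηn cn W η T) (hG : Gen W η c T)
    (hc : ∀ t ∈ Ico 0 T, Tendsto (fun n => cn n t) atTop (𝓝 (c t))) {t : ℝ} (ht : t ∈ Ico 0 T)
    (hct : c t = 0) : η t = (W 0 : ℂ) := by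
  rcases ht.1.eq_or_lt with h0 | h0
  · rw [← h0]; exact hG.start
  by_contra hne
  set d : ℝ := ‖η t - (W 0 : ℂ)‖ with hd
  have hdpos : 0 < d := norm_pos_iff.2 (sub_ne_zero.2 hne)
  obtain ⟨ω, hω, hosc⟩ := equi_osc hA.contW (hA.drv 1) (r := d / 2 / 8) (by positivity)
  have hcn := hc t ht
  rw [hct] at hcn
  have h1 : ∀ᶠ n in atTop, cn n t < min (min ω 1) ((d / 2) ^ 2 / 64) :=
    hcn.eventually_lt_const (by positivity)
  have h2 := Metric.tendstoUniformlyOn_iff.1 (hA.crv t ht) (d / 4) (by positivity)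
  have h3 := Metric.tendstoUniformlyOn_iff.1 (hA.drv 1) (d / 4) (by positivity)
  obtain ⟨n, hn, hn1, hn2, hn3⟩ := (hosc.and (h1.and (h2.and h3))).exists
  have hS := hA.sgen n
  have hz : ηn n t ∈ loewnerDomain (Wn n) 0 := by
    have := hS.mem_dom le_rfl h0 ht.2
    rwa [hS.c_zero] at this
  have hz' : ηn n t ∉ loewnerDomain (Wn n) (cn n t) := hS.not_mem_dom ht ⟨ht.1, le_rfl⟩
  have hcn0 : 0 ≤ cn n t := hS.nonneg ht
  have hmin1 : cn n t < ω := hn1.trans_le ((min_le_left _ _).trans (min_le_left _ _))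
  have hmin2 : cn n t < 1 := hn1.trans_le ((min_le_left _ _).trans (min_le_right _ _))
  have hmin3 : cn n t < (d / 2) ^ 2 / 64 := hn1.trans_le (min_le_right _ _)
  have h4 := near_of_dying (hA.contWn n) (ϰ := d / 2) (by positivity) le_rfl hcn0 hz hz'
    (by linarith) (fun u hu => (hn u ⟨hu.1, hu.2.trans hmin2.le⟩ 0 ⟨le_rfl, zero_le_one⟩ (by
      rw [sub_zero, abs_of_nonneg hu.1]; linarith [hu.2])).le)
  rw [Zf_zero (dom_zero.1 hz)] at h4
  have h5 := hn2 t ⟨ht.1, le_rfl⟩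
  have h6 := hn3 0 ⟨le_rfl, zero_le_one⟩
  rw [dist_eq_norm] at h5
  rw [Real.dist_eq] at h6
  have h7 : ‖(Wn n 0 : ℂ) - (W 0 : ℂ)‖ < d / 4 := by
    rw [← Complex.ofReal_sub, Complex.norm_real, Real.norm_eq_abs, abs_sub_comm]
    exact h6
  have h8 : η t - (W 0 : ℂ) = (η t - ηn n t) + (ηn n t - (Wn n 0 : ℂ))
      + ((Wn n 0 : ℂ) - (W 0 : ℂ)) := by ring
  have h9 : d ≤ ‖η t - ηn n t‖ + ‖ηn n t - (Wn n 0 : ℂ)‖ + ‖(Wn n 0 : ℂ) - (W 0 : ℂ)‖ := by
    rw [hd, h8]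
    exact norm_add₃_le
  linarith

/-- Wolff: a short crosscut around the tip. -/
lemma exists_short_cut {V : ℝ → ℝ} {τ R ε r : ℝ} (hV : Continuous V) (hτ : 0 ≤ τ) (hR0 : 0 < R)
    (hR : ∀ z : ℂ, 0 < z.im → R ≤ ‖z‖ → z ∈ loewnerDomain V τ ∧ 1 < ‖Zf V z τ‖)
    (hr : 0 < r) (hr1 : r < 1) (hε : 0 < ε)
    (hK : 2 * Real.pi * (Real.pi * R ^ 2) < ε ^ 2 * Real.log (1 / r)) :
    ∃ ρ ∈ Ioo r 1, Bornology.IsBounded (cut V τ ρ) ∧
      ∀ z ∈ closure (cut V τ ρ), ∀ z' ∈ closure (cut V τ ρ), ‖z - z'‖ ≤ ε := by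
  have hsub : ∀ w : ℂ, 0 < w.im → ‖w‖ < 1 → Finv V τ w ∈ ball (0 : ℂ) R := by
    intro w hw hw1
    rw [mem_ball_zero_iff]
    by_contra hcon
    have h1 := Finv_mem hτ hV hw
    have h2 := (hR _ (im_pos_of_dom hτ h1) (not_lt.1 hcon)).2
    rw [Zf_Finv hτ hV hw] at h2
    linarith
  have hset : {z : ℂ | 0 < z.im ∧ dist z ((0 : ℝ) : ℂ) < 1} ⊆ {w | 0 < w.im} := fun z hz => hz.1
  have hvol : volume (Finv V τ '' {z : ℂ | 0 < z.im ∧ dist z ((0 : ℝ) : ℂ) < 1}) ≤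
      ENNReal.ofReal (Real.pi * R ^ 2) := by
    refine (measure_mono (t := ball (0 : ℂ) R) ?_).trans ?_
    · rintro _ ⟨w, hw, rfl⟩
      exact hsub w hw.1 (by simpa [dist_eq_norm] using hw.2)
    · rw [Complex.volume_ball, mul_comm, ENNReal.ofReal_mul Real.pi_pos.le,
        ENNReal.ofReal_pow hR0.le]
      refine mul_le_mul' (le_of_eq ?_) le_rfl
      rw [← NNReal.coe_real_pi, ENNReal.ofReal_coe_nnreal]
  obtain ⟨ρ, hρ, H⟩ := R1.exists_half_crosscut (ψ := Finv V τ) (x := 0) (a := r) (b := 1)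
    (A := Real.pi * R ^ 2) (K := ε ^ 2) hr hr1 ((Finv_differentiableOn hτ hV).mono hset)
    ((Finv_injOn hτ hV).mono hset) (by positivity) hvol hK
  have hd : ∀ z ∈ cut V τ ρ, ∀ z' ∈ cut V τ ρ, ‖z - z'‖ ≤ ε := by
    rintro _ ⟨w, hw, rfl⟩ _ ⟨w', hw', rfl⟩
    have h1 := H w w' hw.1 (by simpa [dist_eq_norm] using hw.2) hw'.1
      (by simpa [dist_eq_norm] using hw'.2)
    exact le_of_sq_le_sq h1 hε.le
  refine ⟨ρ, hρ, ?_, ?_⟩
  · refine (isBounded_ball (x := (0 : ℂ)) (r := R)).subset ?_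
    rintro _ ⟨w, hw, rfl⟩
    exact hsub w hw.1 (by rw [hw.2]; exact hρ.2)
  · intro z hz z' hz'
    have h2 : IsClosed {p : ℂ × ℂ | ‖p.1 - p.2‖ ≤ ε} :=
      isClosed_le (by fun_prop) continuous_const
    have h3 : closure (cut V τ ρ ×ˢ cut V τ ρ) ⊆ {p : ℂ × ℂ | ‖p.1 - p.2‖ ≤ ε} :=
      closure_minimal (fun p hp => hd _ hp.1 _ hp.2) h2
    rw [closure_prod_eq] at h3
    exact h3 (show (z, z') ∈ _ from ⟨hz, hz'⟩)

/-- The statement at a fixed level `n`. -/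
theorem core {V : ℝ → ℝ} {γ η : ℝ → ℂ} {a : ℝ → ℝ} {T : ℝ} (hV : Continuous V)
    (hS : SGen V γ a T) {s0 sa sb t' t : ℝ} (hsa0 : 0 ≤ sa) (hab : sa ≤ sb) (hb : sb < s0)
    (ht' : s0 < t') (ht't : t' ≤ t) (htT : t < T) {e y : ℂ} {R r ε κ m d0 d : ℝ}
    (hR0 : 0 < R)
    (hR : ∀ z : ℂ, 0 < z.im → R ≤ ‖z‖ → z ∈ loewnerDomain V (a s0) ∧ 1 < ‖Zf V z (a s0)‖)
    (hx : ∀ u ∈ Ioc s0 t, ‖Zf V (γ u) (a s0)‖ < r) (hr : 0 < r) (hr1 : r < 1)
    (hK : 2 * Real.pi * (Real.pi * R ^ 2) < ε ^ 2 * Real.log (1 / r))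
    (hε : 0 < ε) (hεm : ε ≤ m / 8) (hεd : ε ≤ d0 / 8) (hκm : κ ≤ m / 4) (hκd : κ ≤ d0 / 4)
    (hmd : m ≤ d / 4) (hclose : ∀ s ∈ Icc 0 t, ‖γ s - η s‖ < κ)
    (hsa : ∀ s ∈ Icc sa s0, ‖η s - e‖ < d / 4) (hsb : ∀ s ∈ Icc sb s0, ‖η s - e‖ < m / 4)
    (hm1 : ∀ z : ℂ, ‖z - e‖ < m → 0 < z.im ∧ z ∉ η '' Icc 0 sa)
    {P : Set ℂ} (hP : JoinedIn P e y)
    (hP1 : ∀ p ∈ P, ∀ z : ℂ, ‖z - p‖ < d0 → 0 < z.im ∧ z ∉ η '' Icc 0 sb)
    (ht'e : ‖η t' - e‖ < d0 / 4) (hy : 0 < y.im) (hyR : R ≤ ‖y‖) (hye : d / 2 < ‖y - e‖) :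
    ‖γ t - e‖ ≤ d / 2 := by
  have hs0 : 0 ≤ s0 := hsa0.trans (hab.trans hb.le)
  have hs0T : s0 ∈ Ico 0 T := ⟨hs0, ht'.trans_le ht't |>.trans htT⟩
  have hτ : 0 ≤ a s0 := hS.nonneg hs0T
  set τ : ℝ := a s0 with hτdef
  have hdom : loewnerDomain V τ = HH \ γ '' Icc 0 s0 := hS.dom s0 hs0T
  have hmem : ∀ z : ℂ, z ∉ loewnerDomain V τ → z.im ≤ 0 ∨ z ∈ γ '' Icc 0 s0 := by
    intro z hz
    rw [hdom] at hz
    by_contra hcon
    push Not at hcon
    exact hz ⟨hcon.1, hcon.2⟩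
  have hxmem : ∀ u ∈ Ioc s0 t, γ u ∈ loewnerDomain V τ := fun u hu =>
    hS.mem_dom hs0 hu.1 (hu.2.trans_lt htT)
  obtain ⟨hyd, hy1⟩ := hR y hy hyR
  obtain ⟨ρ, hρ, hbd, hdiam⟩ := exists_short_cut hV hτ hR0 hR hr hr1 hε hK
  have hρ0 : 0 < ρ := hr.trans hρ.1
  have hm0 : 0 < m := by linarith
  have hd00 : 0 < d0 := by linarith
  have hγc : ContinuousOn γ (Icc 0 s0) := hS.cont.mono fun u hu => ⟨hu.1, hu.2.trans_lt hs0T.2⟩
  obtain ⟨b0, hb0, hb0'⟩ := closure_cut_meets hτ hV hρ0 hbd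
  -- step 1
  have step1 : ∃ b1 ∈ closure (cut V τ ρ), b1 ∉ loewnerDomain V τ ∧ 0 < b1.im ∧
      b1 ∉ γ '' Icc 0 sb := by
    by_contra hcon
    push Not at hcon
    obtain ⟨M, hM⟩ : ∃ M : ℝ, closure (cut V τ ρ) ∪ {γ 0} ⊆ closedBall 0 M :=
      (hbd.isCompact_closure.isBounded.union Bornology.isBounded_singleton).subset_closedBall 0
    have hγ0 : (γ 0).im ≤ 0 := by rw [hS.start]; simp
    have hlow : Convex ℝ ({z : ℂ | z.im ≤ 0} ∩ closedBall 0 M) :=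
      (convex_halfSpace_im_le 0).inter (convex_closedBall 0 M)
    have hB'c : IsCompact (({z : ℂ | z.im ≤ 0} ∩ closedBall 0 M) ∪ γ '' Icc 0 sb) :=
      ((isCompact_closedBall 0 M).inter_left (isClosed_le Complex.continuous_im
        continuous_const)).union
        (isCompact_Icc.image_of_continuousOn (hγc.mono (Icc_subset_Icc_right hb.le)))
    have hB'p : IsPreconnected (({z : ℂ | z.im ≤ 0} ∩ closedBall 0 M) ∪ γ '' Icc 0 sb) := by
      refine IsPreconnected.union (γ 0) ⟨hγ0, hM (Or.inr rfl)⟩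
        ⟨0, ⟨le_rfl, hsa0.trans hab⟩, rfl⟩ hlow.isPreconnected
        (isPreconnected_Icc.image _ (hγc.mono (Icc_subset_Icc_right hb.le)))
    have hnot := not_joined_union hτ hV (hxmem t' ⟨ht', ht't⟩) hyd
      ((hx t' ⟨ht', ht't⟩).trans hρ.1) (hρ.2.trans hy1) hbd hB'c hB'p ?_ ?_
    · refine hnot ?_
      -- the points of the thickened path
      have hthick : ∀ p ∈ P, ∀ z : ℂ, ‖z - p‖ < d0 / 2 →
          z ∈ (closure (cut V τ ρ) ∪ (({z : ℂ | z.im ≤ 0} ∩ closedBall 0 M) ∪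
            γ '' Icc 0 sb))ᶜ := by
        intro p hp z hz
        have key : ∀ z' : ℂ, ‖z' - p‖ < 3 * d0 / 4 → 0 < z'.im ∧ z' ∉ γ '' Icc 0 sb := by
          intro z' hz'
          refine ⟨(hP1 p hp z' (by linarith)).1, ?_⟩
          rintro ⟨u, hu, rfl⟩
          refine (hP1 p hp (η u) ?_).2 ⟨u, hu, rfl⟩
          have h1 := hclose u ⟨hu.1, hu.2.trans (hb.le.trans (ht'.le.trans ht't))⟩
          rw [norm_sub_rev] at h1
          have h2 : η u - p = (η u - γ u) + (γ u - p) := by ring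
          rw [h2]
          refine (norm_add_le _ _).trans_lt ?_
          linarith
        rintro (h | ⟨h, -⟩ | h)
        · -- on the crosscut
          have h1 := hdiam b0 hb0 z h
          have h2 : b0 - p = (b0 - z) + (z - p) := by ring
          have h3 : ‖b0 - p‖ < 3 * d0 / 4 := by
            rw [h2]
            refine (norm_add_le _ _).trans_lt ?_
            linarith
          exact (key b0 h3).2 (hcon b0 hb0 hb0' (key b0 h3).1)
        · exact absurd (key z (by linarith)).1 (not_lt.2 h)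
        · exact (key z (by linarith)).2 h
      have he : e ∈ P := hP.mem.1
      have hx1 : ‖γ t' - e‖ < d0 / 2 := by
        have h1 := hclose t' ⟨hs0.trans ht'.le, ht't⟩
        have h2 : γ t' - e = (γ t' - η t') + (η t' - e) := by ring
        rw [h2]
        refine (norm_add_le _ _).trans_lt ?_
        linarith
      have hj1 : JoinedIn (ball e (d0 / 2)) (γ t') e :=
        ((convex_ball e (d0 / 2)).isPathConnected ⟨e, mem_ball_self (by positivity)⟩).joinedIn _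
          (by rwa [mem_ball, dist_eq_norm]) _ (mem_ball_self (by positivity))
      refine (hj1.mono ?_).trans (hP.mono ?_)
      · intro z hz
        rw [mem_ball, dist_eq_norm] at hz
        exact hthick e he z hz
      · intro z hz
        exact hthick z hz z (by rw [sub_self, norm_zero]; positivity)
    · rintro z (⟨hz, -⟩ | hz) hz'
      · exact absurd (im_pos_of_dom hτ hz') (not_lt.2 hz)
      · rw [hdom] at hz'
        exact hz'.2 (image_mono (Icc_subset_Icc_right hb.le) hz)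
    · rintro z ⟨hz, hz'⟩
      by_cases him : 0 < z.im
      · exact Or.inr (hcon z hz hz' him)
      · exact Or.inl ⟨not_lt.1 him, hM (Or.inl hz)⟩
  obtain ⟨b1, hb1, hb1d, hb1im, hb1s⟩ := step1
  obtain ⟨σ, hσ, hσe⟩ : b1 ∈ γ '' Icc 0 s0 := (hmem b1 hb1d).resolve_left (not_le.2 hb1im)
  have hσb : sb < σ := by
    by_contra hcon
    exact hb1s ⟨σ, ⟨hσ.1, not_lt.1 hcon⟩, hσe⟩
  have hs0t : s0 ≤ t := ht'.le.trans ht't
  have hb1e : ‖b1 - e‖ < m / 2 := by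
    have h1 := hclose σ ⟨hσ.1, hσ.2.trans hs0t⟩
    have h2 := hsb σ ⟨hσb.le, hσ.2⟩
    have h3 : b1 - e = (γ σ - η σ) + (η σ - e) := by rw [← hσe]; ring
    rw [h3]
    refine (norm_add_le _ _).trans_lt ?_
    linarith
  have hcl : ∀ z ∈ closure (cut V τ ρ), ‖z - e‖ < 3 * m / 4 := by
    intro z hz
    have h1 := hdiam z hz b1 hb1
    have h3 : z - e = (z - b1) + (b1 - e) := by ring
    rw [h3]
    refine (norm_add_le _ _).trans_lt ?_
    linarith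
  -- step 2
  have hnot := not_joined_union hτ hV (hxmem t ⟨ht'.trans_le ht't, le_rfl⟩) hyd
    ((hx t ⟨ht'.trans_le ht't, le_rfl⟩).trans hρ.1) (hρ.2.trans hy1) hbd
    (B' := γ '' Icc sa s0)
    (isCompact_Icc.image_of_continuousOn (hγc.mono (Icc_subset_Icc_left hsa0)))
    (isPreconnected_Icc.image _ (hγc.mono (Icc_subset_Icc_left hsa0))) ?_ ?_
  · by_contra hcon
    rw [not_le] at hcon
    refine hnot ?_
    have hj : JoinedIn (closedBall e (d / 2))ᶜ (γ t) y := by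
      refine P153.TOP.joinedIn_of_preconnected isClosed_closedBall.isOpen_compl
        (P153.TOP.isPreconnected_compl_closedBall e (d / 2)) Subset.rfl ?_ ?_
      · rw [mem_compl_iff, mem_closedBall, dist_eq_norm]
        exact not_le.2 hcon
      · rw [mem_compl_iff, mem_closedBall, dist_eq_norm]
        exact not_le.2 hye
    refine hj.mono (compl_subset_compl.2 ?_)
    rintro z (hz | ⟨u, hu, rfl⟩)
    · rw [mem_closedBall, dist_eq_norm]
      have := hcl z hz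
      linarith
    · rw [mem_closedBall, dist_eq_norm]
      have h1 := hclose u ⟨hsa0.trans hu.1, hu.2.trans hs0t⟩
      have h2 := hsa u hu
      have h3 : γ u - e = (γ u - η u) + (η u - e) := by ring
      rw [h3]
      refine (norm_add_le _ _).trans ?_
      linarith
  · rw [hdom]
    rintro z hz hz'
    exact hz'.2 (image_mono (Icc_subset_Icc_left hsa0) hz)
  · rintro z ⟨hz, hz'⟩
    have h1 := hcl z hz
    obtain ⟨u, hu, rfl⟩ : z ∈ γ '' Icc 0 s0 :=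
      (hmem z hz').resolve_left (not_le.2 (hm1 z (by linarith)).1)
    refine ⟨u, ⟨?_, hu.2⟩, rfl⟩
    by_contra hcon
    rw [not_le] at hcon
    refine (hm1 (η u) ?_).2 ⟨u, ⟨hu.1, hcon.le⟩, rfl⟩
    have h2 := hclose u ⟨hu.1, hu.2.trans hs0t⟩
    rw [norm_sub_rev] at h2
    have h3 : η u - e = (η u - γ u) + (γ u - e) := by ring
    rw [h3]
    refine (norm_add_le _ _).trans_lt ?_
    linarith

/-- Positive levels: if `s0` is the first time with capacity `c s0` and `η s0` is alive at all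
earlier capacities, then `η` stays at `η s0` as long as the capacity does not change. -/
theorem nb_pos (hA : Appr Wn ηn cn W η T) (hG : Gen W η c T)
    (hc : ∀ t ∈ Ico 0 T, Tendsto (fun n => cn n t) atTop (𝓝 (c t))) {s0 t : ℝ} (hs0 : 0 < s0)
    (hst : s0 < t) (htT : t < T) (hct : c t = c s0)
    (hα : ∀ s ∈ Ico 0 s0, η s0 ∈ loewnerDomain W (c s)) : η t = η s0 := by
  by_contra hne
  set e : ℂ := η s0 with he
  set d : ℝ := ‖η t - e‖ with hd
  have hdpos : 0 < d := norm_pos_iff.2 (sub_ne_zero.2 hne)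
  have hs0T : s0 < T := hst.trans htT
  have hcont : ContinuousAt η s0 := hG.cont.continuousAt (Ico_mem_nhds hs0 hs0T)
  have hmod : ∀ r : ℝ, 0 < r → ∃ δ > 0, ∀ s, |s - s0| < δ → ‖η s - e‖ < r := by
    intro r hr
    obtain ⟨δ, hδ, H⟩ := Metric.continuousAt_iff.1 hcont r hr
    exact ⟨δ, hδ, fun s hs => by rw [← dist_eq_norm]; exact H (by rwa [Real.dist_eq])⟩
  have hleft : ∀ r : ℝ, 0 < r → ∀ a < s0, 0 ≤ a → ∃ b, a ≤ b ∧ b < s0 ∧
      ∀ s ∈ Icc b s0, ‖η s - e‖ < r := by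
    intro r hr a ha _
    obtain ⟨δ, hδ, H⟩ := hmod r hr
    refine ⟨max a (s0 - δ / 2), le_max_left _ _, max_lt ha (by linarith), fun s hs => H s ?_⟩
    rw [abs_lt]
    have := (le_max_right a (s0 - δ / 2)).trans hs.1
    constructor <;> linarith [hs.2]
  have hopen : ∀ a ∈ Ico 0 s0, IsOpen (loewnerDomain W (c a)) := fun a ha =>
    isOpen_domain_nb (by
      have := hG.mono (a := 0) (b := a) ⟨le_rfl, hG.pos⟩ ⟨ha.1, ha.2.trans hs0T⟩ ha.1
      rwa [hG.c_zero] at this) hA.contW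
  have hcnn : ∀ a ∈ Ico 0 T, 0 ≤ c a := fun a ha => by
    have := hG.mono (a := 0) (b := a) ⟨le_rfl, hG.pos⟩ ha ha.1
    rwa [hG.c_zero] at this
  -- the first point `sa`
  obtain ⟨sa, hsa0, hsas, hsa⟩ := hleft (d / 4) (by positivity) 0 hs0 le_rfl
  obtain ⟨m1, hm1, hball1⟩ := Metric.isOpen_iff.1 (hopen sa ⟨hsa0, hsas⟩) e (hα sa ⟨hsa0, hsas⟩)
  set m : ℝ := min m1 (d / 4) with hm
  have hm0 : 0 < m := lt_min hm1 (by positivity)
  have hmm : ∀ z : ℂ, ‖z - e‖ < m → 0 < z.im ∧ z ∉ η '' Icc 0 sa := by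
    intro z hz
    have hz' : z ∈ loewnerDomain W (c sa) := hball1 (by
      rw [mem_ball, dist_eq_norm]; exact hz.trans_le (min_le_left _ _))
    refine ⟨im_pos_of_dom (hcnn sa ⟨hsa0, hsas.trans hs0T⟩) hz', ?_⟩
    rintro ⟨u, hu, rfl⟩
    exact hG.disj ⟨hsa0, hsas.trans hs0T⟩ hu hz'
  -- the second point `sb`
  obtain ⟨sb, hab, hsbs, hsb⟩ := hleft (m / 4) (by positivity) sa hsas hsa0
  have hsb0 : 0 ≤ sb := hsa0.trans hab
  -- constants
  set S : ℝ := c s0 + 1 with hS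
  have hcs0 : 0 ≤ c s0 := hcnn s0 ⟨hs0.le, hs0T⟩
  have hS1 : 1 ≤ S := by linarith
  obtain ⟨M, hM0, hM⟩ := bound_osc hA.contW (hA.drv S)
  obtain ⟨M', hM'⟩ := (isCompact_Icc (a := (0 : ℝ)) (b := S)).exists_bound_of_continuousOn
    hA.contW.continuousOn
  set ϰ : ℝ := 8 * (M + 2 * |M'| + S) with hϰ
  have hM'0 : 0 ≤ |M'| := abs_nonneg _
  have hϰ8 : 8 ≤ ϰ := by rw [hϰ]; linarith
  have hϰ0 : 0 < ϰ := by linarith
  have hϰS : S ≤ ϰ ^ 2 / 64 := by
    have h1 : 8 * S ≤ ϰ := by rw [hϰ]; linarith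
    have h2 : (8 * S) ^ 2 ≤ ϰ ^ 2 := pow_le_pow_left₀ (by linarith) h1 2
    nlinarith
  set R : ℝ := M + |M'| + ϰ with hR
  have hR0 : 0 < R := by rw [hR]; positivity
  -- the far point
  set y : ℂ := ((R + ‖e‖ + d : ℝ) : ℂ) * Complex.I with hy
  have hyn : ‖y‖ = R + ‖e‖ + d := by
    rw [hy, norm_mul, Complex.norm_I, mul_one, Complex.norm_real, Real.norm_eq_abs,
      abs_of_pos (by positivity)]
  have hyim : 0 < y.im := by
    rw [hy]
    simp only [Complex.mul_im, Complex.ofReal_re, Complex.I_im, mul_one, Complex.ofReal_im,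
      Complex.I_re, mul_zero, add_zero]
    positivity
  have hyR : R ≤ ‖y‖ := by rw [hyn]; linarith [norm_nonneg e]
  have hye : d / 2 < ‖y - e‖ := by
    have h1 : ‖y‖ - ‖e‖ ≤ ‖y - e‖ := norm_sub_norm_le y e
    rw [hyn] at h1
    linarith
  have hyW : y ∈ loewnerDomain W (c sb) := by
    have hle : c sb ≤ S := by
      have := hG.mono (a := sb) (b := s0) ⟨hsb0, hsbs.trans hs0T⟩ ⟨hs0.le, hs0T⟩ hsbs.le
      linarith
    refine (far_point hA.contW hyim hϰ0 (hcnn sb ⟨hsb0, hsbs.trans hs0T⟩) ?_ (hle.trans hϰS)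
      ?_).1
    · have h1 := hM' 0 ⟨le_rfl, by linarith⟩
      have h2 := le_abs_self M'
      have h3 : ‖y‖ - ‖((W 0 : ℝ) : ℂ)‖ ≤ ‖y - (W 0 : ℂ)‖ := norm_sub_norm_le _ _
      rw [Complex.norm_real] at h3
      linarith
    · intro u hu
      have h1 := hM' 0 ⟨le_rfl, by linarith⟩
      have h2 := hM' u ⟨hu.1, hu.2.trans hle⟩
      have h3 := le_abs_self M'
      rw [Real.norm_eq_abs] at h1 h2
      have h4 : |W u - W 0| ≤ |W u| + |W 0| := abs_sub _ _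
      have h5 : ϰ / 8 = M + 2 * |M'| + S := by rw [hϰ]; ring
      rw [h5]
      linarith
  -- the path
  have hP : JoinedIn (loewnerDomain W (c sb)) e y :=
    (isPathConnected_dom (hcnn sb ⟨hsb0, hsbs.trans hs0T⟩) hA.contW).joinedIn _
      (hα sb ⟨hsb0, hsbs⟩) _ hyW
  obtain ⟨p, hp⟩ := hP
  obtain ⟨d1, hd1, hthick⟩ := (isCompact_range p.continuous).exists_thickening_subset_open
    (hopen sb ⟨hsb0, hsbs⟩) (by rintro _ ⟨u, rfl⟩; exact hp u)
  have hPj : JoinedIn (range p) e y := ⟨p, fun u => mem_range_self u⟩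
  have hP1 : ∀ q ∈ range p, ∀ z : ℂ, ‖z - q‖ < d1 → 0 < z.im ∧ z ∉ η '' Icc 0 sb := by
    intro q hq z hz
    have hz' : z ∈ loewnerDomain W (c sb) :=
      hthick (Metric.mem_thickening_iff.2 ⟨q, hq, by rwa [dist_eq_norm]⟩)
    refine ⟨im_pos_of_dom (hcnn sb ⟨hsb0, hsbs.trans hs0T⟩) hz', ?_⟩
    rintro ⟨u, hu, rfl⟩
    exact hG.disj ⟨hsb0, hsbs.trans hs0T⟩ hu hz'
  -- the time `t'`
  obtain ⟨t', ht', ht't, ht'e⟩ : ∃ t', s0 < t' ∧ t' ≤ t ∧ ‖η t' - e‖ < d1 / 4 := by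
    obtain ⟨δ, hδ, H⟩ := hmod (d1 / 4) (by positivity)
    refine ⟨min t (s0 + δ / 2), lt_min hst (by linarith), min_le_left _ _, H _ ?_⟩
    have h1 : s0 < min t (s0 + δ / 2) := lt_min hst (by linarith)
    have h2 := min_le_right t (s0 + δ / 2)
    rw [abs_lt]
    constructor <;> linarith
  -- small constants
  set ε : ℝ := min m d1 / 8 with hε
  have hmin : 0 < min m d1 := lt_min hm0 hd1
  have hε0 : 0 < ε := by positivity
  set κ : ℝ := min m d1 / 4 with hκ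
  have hκ0 : 0 < κ := by positivity
  set A : ℝ := Real.pi * R ^ 2 with hA'
  set r : ℝ := Real.exp (-(2 * Real.pi * A / ε ^ 2 + 1)) with hr
  have hr0 : 0 < r := Real.exp_pos _
  have hApos : 0 < A := by positivity
  have hr1 : r < 1 := by
    rw [hr, Real.exp_lt_one_iff]
    have : 0 ≤ 2 * Real.pi * A / ε ^ 2 := by positivity
    linarith
  have hK : 2 * Real.pi * (Real.pi * R ^ 2) < ε ^ 2 * Real.log (1 / r) := by
    rw [one_div, Real.log_inv, hr, Real.log_exp, neg_neg, mul_add, mul_one,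
      mul_div_cancel₀ _ (by positivity : ε ^ 2 ≠ 0)]
    have : 0 < ε ^ 2 := by positivity
    linarith
  -- choice of `n`
  obtain ⟨ω, hω, hosc⟩ := equi_osc hA.contW (hA.drv S) (r := r / 8) (by positivity)
  have h1 := Metric.tendstoUniformlyOn_iff.1 (hA.crv t ⟨(hs0.trans hst).le, htT⟩) κ hκ0
  have h2 := hc t ⟨(hs0.trans hst).le, htT⟩
  rw [hct] at h2
  have h3 := hc s0 ⟨hs0.le, hs0T⟩
  have h4 : ∀ᶠ n in atTop, cn n t < S := h2.eventually_lt_const (by linarith)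
  have h5 : ∀ᶠ n in atTop, cn n t - cn n s0 < min ω (r ^ 2 / 64) := by
    have := h2.sub h3
    rw [sub_self] at this
    exact this.eventually_lt_const (by positivity)
  obtain ⟨n, hn1, hn2, hn4, hn5, hnM⟩ := (hosc.and (h1.and (h4.and (h5.and hM)))).exists
  have hSn := hA.sgen n
  have hV := hA.contWn n
  have hτ0 : 0 ≤ cn n s0 := hSn.nonneg ⟨hs0.le, hs0T⟩
  have hτt : cn n s0 ≤ cn n t := hSn.le hs0.le hst.le htT
  have h6 := core (t := t) hV hSn hsa0 hab hsbs ht' ht't htT (e := e) (y := y) (η := η) (R := R)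
    (r := r) (ε := ε) (κ := κ) (m := m) (d0 := d1) (d := d) hR0 ?_ ?_ hr0 hr1 hK hε0
    (by rw [hε]; linarith [min_le_left m d1]) (by rw [hε]; linarith [min_le_right m d1])
    (by rw [hκ]; linarith [min_le_left m d1]) (by rw [hκ]; linarith [min_le_right m d1])
    (min_le_right _ _) ?_ hsa hsb hmm hPj hP1 ht'e hyim hyR hye
  · have h7 := hn2 t ⟨(hs0.trans hst).le, le_rfl⟩
    rw [dist_eq_norm] at h7
    have h8 : η t - e = (η t - ηn n t) + (ηn n t - e) := by ring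
    have h9 : d ≤ ‖η t - ηn n t‖ + ‖ηn n t - e‖ := by
      rw [hd, h8]
      exact norm_add_le _ _
    have h10 : κ ≤ d / 16 := by
      have e1 := min_le_left m d1
      have e2 : m ≤ d / 4 := min_le_right _ _
      rw [hκ]
      linarith
    linarith
  · intro z hz hzR
    have hb := hnM 0 ⟨le_rfl, by linarith⟩
    have h7 := far_point (t := cn n s0) hV hz hϰ0 hτ0 ?_ ((hτt.trans hn4.le).trans hϰS) ?_
    · exact ⟨h7.1, lt_of_le_of_lt (by linarith) h7.2⟩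
    · have h8 : ‖z‖ - ‖((Wn n 0 : ℝ) : ℂ)‖ ≤ ‖z - (Wn n 0 : ℂ)‖ := norm_sub_norm_le _ _
      rw [Complex.norm_real, Real.norm_eq_abs] at h8
      linarith [hb.2]
    · intro u hu
      have h8 := (hnM u ⟨hu.1, hu.2.trans (hτt.trans hn4.le)⟩).1
      have h9 : ϰ / 8 = M + 2 * |M'| + S := by rw [hϰ]; ring
      rw [h9]
      linarith
  · intro u hu
    have huT : u < T := hu.2.trans_lt htT
    have hu0 : 0 ≤ u := hs0.le.trans hu.1.le
    have h7 : cn n u ≤ cn n t := hSn.le hu0 hu.2 htT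
    have h8 : cn n s0 ≤ cn n u := hSn.le hs0.le hu.1.le huT
    refine near_of_dying hV hr0 hτ0 h8 (hSn.mem_dom hs0.le hu.1 huT)
      (hSn.not_mem_dom ⟨hu0, huT⟩ ⟨hu0, le_rfl⟩) ?_ ?_
    · have := min_le_right ω (r ^ 2 / 64)
      linarith
    · intro v hv
      have e1 := min_le_left ω (r ^ 2 / 64)
      refine (hn1 v ⟨hτ0.trans hv.1, (hv.2.trans h7).trans hn4.le⟩ (cn n s0)
        ⟨hτ0, hτt.trans hn4.le⟩ ?_).le
      rw [abs_of_nonneg (by linarith [hv.1])]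
      linarith [hv.2]
  · intro s hs
    have := hn2 s hs
    rw [dist_comm, dist_eq_norm] at this
    exact this

/-- **No backtracking.** -/
theorem s_nb : S_nb := by
  intro Wn ηn cn W η c T ηh hA hG hc hArc t ht
  have hmemt : c t ∈ c '' Ico 0 T := ⟨t, ht, rfl⟩
  obtain ⟨t1, ht1, hct1, hfirst, hηt1⟩ := hArc.first (c t) hmemt
  have hcnn : 0 ≤ c t := by
    have := hG.mono (a := 0) (b := t) ⟨le_rfl, hG.pos⟩ ht ht.1
    rwa [hG.c_zero] at this
  rcases hcnn.eq_or_lt with h0 | h0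
  · rw [nb_zero hA hG hc ht h0.symm, ← h0, hArc.start]
  have hle : t1 ≤ t := by
    by_contra hcon
    have := hfirst t ⟨ht.1, not_le.1 hcon⟩
    exact lt_irrefl _ this
  rcases hle.eq_or_lt with h1 | h1
  · rw [← hηt1, h1]
  rw [← hηt1]
  have ht10 : 0 < t1 := by
    rcases ht1.1.eq_or_lt with h | h
    · exfalso
      rw [← h, hG.c_zero] at hct1
      linarith
    · exact h
  refine nb_pos hA hG hc ht10 h1 ht.2 hct1.symm ?_
  intro s hs
  have hsT : s ∈ Ico 0 T := ⟨hs.1, hs.2.trans (h1.trans ht.2)⟩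
  have hlt : c s < c t := hfirst s hs
  rw [hArc.dom (c s) ⟨s, hsT, rfl⟩, hηt1]
  refine ⟨hArc.im_pos (c t) hmemt h0, ?_⟩
  rintro ⟨u, hu, hue⟩
  have hu' : u ∈ c '' Ico 0 T := by
    have h2 : Icc (c 0) (c s) ⊆ c '' Icc 0 s :=
      intermediate_value_Icc hs.1 (hG.contc.mono fun v hv => ⟨hv.1, hv.2.trans_lt hsT.2⟩)
    rw [hG.c_zero] at h2
    obtain ⟨v, hv, rfl⟩ := h2 hu
    exact ⟨v, ⟨hv.1, hv.2.trans_lt hsT.2⟩, rfl⟩
  have := hArc.inj hu' hmemt hue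
  rw [this] at hu
  exact absurd hu.2 (not_le.2 hlt)

end Vale.Agent.P153.R2.ARCX
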