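import Vale.Agent.P153.R2.ARCX.Arc
import Vale.Agent.P153.R2.R1.Half
import Mathlib.MeasureTheory.Measure.Lebesgue.VolumeOfBalls

/-!
# P153, block ARCX: tips exist for every continuous driver (Wolff's lemma)
-/

open Set Filter Topology Metric MeasureTheory Vale.Agent.P164
open scoped ENNReal Real

namespace Vale.Agent.P153.R2.ARCX

variable {W : ℝ → ℝ} {s t : ℝ}

/-- the inverse of the (centered) flow -/
theorem exists_flinv (hW : Continuous W) (hs : 0 ≤ s) :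
    ∃ ψ : ℂ → ℂ, (∀ ξ : ℂ, 0 < ξ.im → ψ ξ ∈ loewnerDomain W s ∧ flow W s (ψ ξ) = ξ) ∧
      DifferentiableOn ℂ ψ {ξ | 0 < ξ.im} ∧ InjOn ψ {ξ | 0 < ξ.im} ∧
      (∀ z ∈ loewnerDomain W s, ψ (flow W s z) = z) := by
  classical
  have h1 : ∀ ξ : ℂ, ∃ z : ℂ, 0 < ξ.im → z ∈ loewnerDomain W s ∧ flow W s z = ξ := by
    intro ξ
    by_cases h : 0 < ξ.im
    · obtain ⟨z, hz, hz'⟩ := fl_surj hW hs h
      exact ⟨z, fun _ => ⟨hz, hz'⟩⟩
    · exact ⟨0, fun h' => absurd h' h⟩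
  choose ψ hψ using h1
  have hleft : ∀ z ∈ loewnerDomain W s, ψ (flow W s z) = z := by
    intro z hz
    have h2 := hψ _ (fl_im_pos hs hz)
    exact flow_injOn hs hW.continuousOn h2.1 hz h2.2
  refine ⟨ψ, hψ, ?_, ?_, hleft⟩
  · intro ξ hξ
    have hU : ∀ᶠ y : ℂ in 𝓝 ξ, 0 < y.im :=
      (isOpen_lt continuous_const Complex.continuous_im).mem_nhds hξ
    have hc : ContinuousAt ψ ξ := by
      refine fl_tendsto_iff hW hs (hU.mono fun y hy => (hψ y hy).1) (hψ ξ hξ).1 ?_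
      rw [(hψ ξ hξ).2]
      refine (tendsto_id (x := 𝓝 ξ)).congr' ?_
      filter_upwards [hU] with y hy
      exact (hψ y hy).2.symm
    have hd := hasDerivAt_flow hs hW.continuousOn (hψ ξ hξ).1
    exact (HasDerivAt.of_local_left_inverse hc hd (Complex.exp_ne_zero _)
      (hU.mono fun y hy => (hψ y hy).2)).differentiableAt.differentiableWithinAt
  · intro ξ hξ ξ' hξ' h
    rw [← (hψ ξ hξ).2, h, (hψ ξ' hξ').2]

/-- **tips exist** -/
theorem exists_isTip (hW : Continuous W) (hs : 0 ≤ s) : ∃ q : ℂ, IsTip W s q := by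
  obtain ⟨ψ, hψ, hd, hi, hleft⟩ := exists_flinv hW hs
  obtain ⟨R, hR⟩ := fl_bound_inv hW hs 1
  have hRb : ∀ ξ : ℂ, 0 < ξ.im → ‖ξ‖ ≤ 1 → ‖ψ ξ‖ ≤ R := by
    intro ξ hξ h
    have h1 := hψ ξ hξ
    exact hR _ h1.1 (by rw [h1.2]; exact h)
  set A : ℝ := max R 0 ^ 2 * π with hA
  have hA0 : 0 ≤ A := by positivity
  have hsub : ∀ b : ℝ, {z : ℂ | 0 < z.im ∧ dist z ((0 : ℝ) : ℂ) < b} ⊆ {z | 0 < z.im} :=
    fun b z hz => hz.1
  have key : ∀ n : ℕ, ∃ ρ : ℝ, 0 < ρ ∧ ρ < 1 / ((n : ℝ) + 1) ∧ ∀ z z' : ℂ, 0 < z.im → ‖z‖ = ρ →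
      0 < z'.im → ‖z'‖ = ρ → ‖ψ z - ψ z'‖ ≤ 1 / ((n : ℝ) + 1) := by
    intro n
    set b : ℝ := 1 / ((n : ℝ) + 1) with hb
    have hb0 : 0 < b := by positivity
    have hb1 : b ≤ 1 := by
      rw [hb, div_le_one (by positivity)]
      linarith [n.cast_nonneg (α := ℝ)]
    set L : ℝ := 2 * π * A / b ^ 2 + 1 with hL
    have hL0 : 0 < L := by positivity
    have hvol : volume (ψ '' {z | 0 < z.im ∧ dist z ((0 : ℝ) : ℂ) < b}) ≤ ENNReal.ofReal A := by
      have h1 : ψ '' {z | 0 < z.im ∧ dist z ((0 : ℝ) : ℂ) < b} ⊆ closedBall (0 : ℂ) (max R 0) := by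
        rintro _ ⟨z, hz, rfl⟩
        rw [mem_closedBall_zero_iff]
        refine (hRb z hz.1 ?_).trans (le_max_left _ _)
        have := hz.2
        rw [Complex.ofReal_zero, dist_zero_right] at this
        linarith
      refine (measure_mono h1).trans ?_
      rw [Complex.volume_closedBall, hA, ENNReal.ofReal_mul (by positivity),
        ENNReal.ofReal_pow (le_max_right _ _)]
      refine mul_le_mul_right ?_ _
      rw [← NNReal.coe_real_pi, ENNReal.ofReal_coe_nnreal]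
    have hlog : Real.log (b / (b * Real.exp (-L))) = L := by
      rw [← div_div, div_self hb0.ne', one_div, ← Real.exp_neg, neg_neg, Real.log_exp]
    obtain ⟨ρ, hρ, hρ'⟩ := Vale.Agent.P153.R2.R1.exists_half_crosscut (ψ := ψ) (x := 0)
      (a := b * Real.exp (-L)) (b := b) (A := A) (K := b ^ 2) (by positivity)
      (by
        have : Real.exp (-L) < 1 := by rw [Real.exp_lt_one_iff]; linarith
        nlinarith)
      (hd.mono (hsub b)) (hi.mono (hsub b)) hA0 hvol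
      (by
        rw [hlog, hL]
        have h2 : b ^ 2 * (2 * π * A / b ^ 2 + 1) = 2 * π * A + b ^ 2 := by
          field_simp
        rw [h2]
        have : 0 < b ^ 2 := by positivity
        linarith)
    refine ⟨ρ, lt_trans (by positivity) hρ.1, hρ.2, fun z z' h1 h2 h3 h4 => ?_⟩
    have h5 := hρ' z z' h1 (by rw [Complex.ofReal_zero, dist_zero_right, h2]) h3
      (by rw [Complex.ofReal_zero, dist_zero_right, h4])
    exact abs_le_of_sq_le_sq' h5 hb0.le |>.2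
  choose ρ hρ0 hρ1 hρ2 using key
  have hI : ∀ n, ‖(ρ n : ℂ) * Complex.I‖ = ρ n := fun n => by
    rw [norm_mul, Complex.norm_I, mul_one, Complex.norm_real, Real.norm_eq_abs, abs_of_pos (hρ0 n)]
  have hIm : ∀ n, 0 < ((ρ n : ℂ) * Complex.I).im := fun n => by simpa using hρ0 n
  have hle1 : ∀ n, ρ n ≤ 1 := fun n => by
    have h1 : 1 / ((n : ℝ) + 1) ≤ 1 := by
      rw [div_le_one (by positivity)]
      linarith [n.cast_nonneg (α := ℝ)]
    linarith [hρ1 n]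
  obtain ⟨q, -, φ, hφ, hlim⟩ := (isCompact_closedBall (0 : ℂ) R).tendsto_subseq
    (x := fun n => ψ ((ρ n : ℂ) * Complex.I)) (fun n => by
      rw [mem_closedBall_zero_iff]
      exact hRb _ (hIm n) (by rw [hI]; exact hle1 n))
  refine ⟨q, fun ε hε => ?_⟩
  have h1 : ∀ᶠ n in atTop, ‖ψ ((ρ (φ n) : ℂ) * Complex.I) - q‖ < ε / 2 :=
    (tendsto_iff_norm_sub_tendsto_zero.1 hlim).eventually (gt_mem_nhds (by positivity))
  have h2 : ∀ᶠ n in atTop, 1 / (((φ n : ℕ) : ℝ) + 1) < ε / 2 :=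
    (((tendsto_one_div_add_atTop_nhds_zero_nat (𝕜 := ℝ)).comp hφ.tendsto_atTop).eventually
      (gt_mem_nhds (by positivity)))
  obtain ⟨n, hn1, hn2⟩ := (h1.and h2).exists
  refine ⟨ρ (φ n), hρ0 _, by linarith [hρ1 (φ n)], fun z hz hzn => ?_⟩
  have h3 := hρ2 (φ n) (flow W s z) _ (fl_im_pos hs hz) hzn (hIm _) (hI _)
  rw [hleft z hz] at h3
  have h4 := norm_sub_le_norm_sub_add_norm_sub z (ψ ((ρ (φ n) : ℂ) * Complex.I)) q
  linarith

end Vale.Agent.P153.R2.ARCX
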